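import Vale.Agent.P313.NW.H285.TourInst
import Vale.Agent.P313.H136.TreeBr
import Vale.Agent.P313.NW.H205.MixEq

/-!
The numeric walk of a stage datum describes the walk of its token system.
-/

namespace Vale.Agent.P313.NW.H285

open Finset Vale.Agent.P313.NW.CT Vale.Agent.P313.CT Vale.Agent.P313.NW.BP Vale.Agent.P313.NW.H899
  Vale.Agent.P313.H899 Vale.Agent.P313.NW.H644 Vale.Agent.P313.H644 Vale.Agent.P313.NW.H136
  Vale.Agent.P313.H136

variable {p : Par2} {d : SD} [hq0 : NeZero p.q]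

omit hq0 in
theorem fin2_ext {n : ℕ} {H : ℕ → ℕ} {w w' : Fin n} {z : Fin (H w)} {z' : Fin (H w')}
    (h1 : (w : ℕ) = w') (h2 : (z : ℕ) = z') :
    (⟨w, z⟩ : Σ w : Fin n, Fin (H w)) = ⟨w', z'⟩ := by
  have h3 : w = w' := Fin.ext h1
  subst h3
  have h4 : z = z' := Fin.ext h2
  rw [h4]

/-- An environment with the right tape. -/
def E0 (p : Par2) : Env := ⟨[], 0, p.q, p.L, fun _ => 0⟩

omit hq0 in
theorem vd0 {y : Cn} : Vd (E0 p) (wk p d).n (wk p d).H y ↔ VdS p d y := Iff.rfl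

theorem wk0 (hd : Dv p d) : (wk p d).Ok (E0 p) p.r :=
  wkOk hd (Nat.pos_of_ne_zero (NeZero.ne p.q)) rfl rfl

/-- The token of level `0` of a content. -/
def dz (p : Par2) (d : SD) [NeZero p.q] (x0 : (lay p d).X0) (y : Cn) : (lay p d).X0 :=
  dc p d x0 0 y

/-- The tokens of level `0`. -/
theorem dz_eq {x0 : (lay p d).X0} (hd : Dv p d) {y : Cn} (hy : VdS p d y) :
    dz p d x0 y = ⟨⟨y.x, hy.1⟩, ⟨y.z, z_lt hd hy⟩⟩ :=
  dc_of ⟨hy.1, z_lt hd hy⟩

theorem dz_inj {x0 : (lay p d).X0} (hd : Dv p d) {y y' : Cn} (hy : VdS p d y)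
    (hy' : VdS p d y') (h : dz p d x0 y = dz p d x0 y') (ht : y.tp = y'.tp) : y = y' := by
  rw [dz_eq hd hy, dz_eq hd hy'] at h
  have h1 : y.x = y'.x := congrArg (fun u : (lay p d).X0 => (u.1 : ℕ)) h
  have h2 : y.z = y'.z := congrArg (fun u : (lay p d).X0 => (u.2 : ℕ)) h
  ext1
  · exact h1
  · exact h2
  · exact ht

/-- The hop on tokens is the hop on contents. -/
theorem hop_dz {x0 : (lay p d).X0} (hd : Dv p d) {y : Cn} (hy : VdS p d y) :
    hopT p d (dz p d x0 y) = dz p d x0 ((wk p d).fwd y) := by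
  have hy2 : VdS p d ((wk p d).fwd y) := vd0.1 ((wk0 hd).fwd_v (vd0.2 hy))
  rw [dz_eq hd hy, dz_eq hd hy2]
  unfold hopT
  have e1 : (BP.hopF p.toPar d y.x y.z).1 = ((wk p d).fwd y).x := hopF_fst _ _ _ _
  have e2 : (BP.hopF p.toPar d y.x y.z).2 = fr p.n (FD p.toPar d) y.x y.z := hopF_snd _ _ _ _
  have h1 : (BP.hopF p.toPar d y.x y.z).1 < p.n := by rw [e1]; exact hy2.1
  rw [dif_pos h1]
  refine fin2_ext (n := (lay p d).n) (H := fun x => (lay p d).q ^ (lay p d).c x) e1 ?_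
  change (BP.hopF p.toPar d y.x y.z).2 %
    p.q ^ min (d.c (BP.hopF p.toPar d y.x y.z).1) p.cmax = _
  rw [min_eq_left (hd.cm _ h1), e1, e2]
  rfl

/-- The children of a content are the preimages of its token. -/
theorem sum_dn {x0 : (lay p d).X0} (hd : Dv p d) {y : Cn} (hy : VdS p d y)
    (G : (lay p d).X0 → ℕ) [DecidablePred fun u => hopT p d u = dz p d x0 y] :
    ∑ j ∈ range ((wk p d).mv.nc 0 y), G (dz p d x0 ((wk p d).mv.dn 0 y j)) =
      ∑ u ∈ univ.filter (fun u => hopT p d u = dz p d x0 y), G u := by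
  have hk := wk0 hd
  refine sum_bij (fun j _ => dz p d x0 ((wk p d).bwd y j)) ?_ ?_ ?_ ?_
  · intro j hj
    have hj' := mem_range.1 hj
    have h1 : VdS p d ((wk p d).bwd y j) := vd0.1 (hk.bwd_v (vd0.2 hy) hj')
    rw [mem_filter]
    refine ⟨mem_univ _, ?_⟩
    rw [hop_dz hd h1, hk.fwd_bwd (vd0.2 hy) hj']
  · intro j hj j' hj' h
    have hj1 := mem_range.1 hj
    have hj2 := mem_range.1 hj'
    have h1 : VdS p d ((wk p d).bwd y j) := vd0.1 (hk.bwd_v (vd0.2 hy) hj1)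
    have h2 : VdS p d ((wk p d).bwd y j') := vd0.1 (hk.bwd_v (vd0.2 hy) hj2)
    have h3 := dz_inj hd h1 h2 h rfl
    rw [← hk.ix_bwd (vd0.2 hy) hj1, ← hk.ix_bwd (vd0.2 hy) hj2, h3]
  · intro u hu
    rw [mem_filter] at hu
    have hc : VdS p d ⟨u.1, u.2, y.tp⟩ := by
      refine ⟨u.1.2, ?_, hy.2.2⟩
      have h2 : (u.2 : ℕ) < p.q ^ (lay p d).c (u.1 : ℕ) := u.2.2
      exact h2.trans_le (le_of_eq (congrArg (p.q ^ ·) (lay_c hd u.1.2)))
    have h1 : dz p d x0 ⟨u.1, u.2, y.tp⟩ = u := dz_eq hd hc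
    have h2 : (wk p d).fwd ⟨u.1, u.2, y.tp⟩ = y := by
      refine dz_inj (x0 := x0) hd (vd0.1 (hk.fwd_v (vd0.2 hc))) hy ?_ rfl
      rw [← hop_dz hd hc, h1]
      exact hu.2
    refine ⟨ix p.n (FD p.toPar d) (fun x => p.q ^ d.c x) u.1 u.2, ?_, ?_⟩
    · rw [mem_range]
      have := hk.ix_lt_nc (vd0.2 hc)
      rw [h2] at this
      exact this
    · have := hk.bwd_fwd (vd0.2 hc)
      rw [h2] at this
      change dz p d x0 ((wk p d).bwd y (ix (wk p d).n (wk p d).F (wk p d).H u.1 u.2)) = u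
      rw [this]
      exact h1
  · intro j hj
    rfl

theorem dec_un {x0 : (lay p d).X0} (hd : Dv p d) {a : ℕ} (ha : a < p.r) {y : Cn}
    (hy : VdS p d y) : dc p d x0 (a + 1) ((wk p d).unmix a y) =
      (sysc p d).Ri a (dc p d x0 (a + 1) y) := by
  have hk := wk0 hd
  have h1 : VdS p d ((wk p d).unmix a y) := vd0.1 (hk.unmix_v a ha y (vd0.2 hy))
  have hv : y.x < p.n ∧ y.z < (lay p d).q ^ (lay p d).c y.x := ⟨hy.1, z_lt hd hy⟩
  have hv' : ((wk p d).unmix a y).x < p.n ∧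
      ((wk p d).unmix a y).z < (lay p d).q ^ (lay p d).c ((wk p d).unmix a y).x :=
    ⟨h1.1, z_lt hd h1⟩
  rw [dc_of hv, dc_of hv']
  have e : min (d.c y.x) p.cmax = d.c y.x := min_eq_left (hd.cm _ hy.1)
  have hz : (MX.unmixN p.q p.cmax p.nd (min (d.c y.x) p.cmax) a y.x y.z y.tp).1 <
      (lay p d).q ^ (lay p d).c y.x := by
    rw [e]
    exact hv'.2
  rw [← H205.dec_unmixN d a ⟨y.x, hv.1⟩ ⟨y.z, hv.2⟩ y.tp hz]
  refine H205.dec_pair_congr d (a + 1) ⟨y.x, hv.1⟩ ?_ ?_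
  · change (MX.unmixN p.q p.cmax p.nd (d.c y.x) a y.x y.z y.tp).1 = _
    rw [e]
  · change (MX.unmixN p.q p.cmax p.nd (d.c y.x) a y.x y.z y.tp).2 = _
    rw [e]

open Classical in
/-- The instance for helper136's bridge. -/
theorem br (hd : Dv p d) (x0 : (lay p d).X0) :
    Br (sysc p d) (wk p d).mv (VdS p d) (dc p d x0) (fun b y => (lay p d).tlab b y.tp)
      (wk p d).unmix v2 p.r := by
  have hk := wk0 hd
  refine
    { v_lt := fun a t h1 h2 => v2_lt (by omega) h2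
      v_pow := v2_pow
      v_add := fun a t h1 h2 => v2_add (by omega) h2
      D_succ := fun a y => Prod.ext (dc_fst a y) (dc_snd a y)
      nc := fun t y => rfl
      dn := fun t y j ht => if_neg (by omega)
      P_dn := fun y hy j hj => vd0.1 (hk.bwd_v (vd0.2 hy) hj)
      lab_dn := fun y hy j hj b => rfl
      sum_dn := fun y hy G => ?_
      P_un := fun a ha y hy => vd0.1 (hk.unmix_v a ha y (vd0.2 hy))
      lab_un := fun a ha y hy b hb => ?_
      D_un := fun a ha y hy => dec_un hd ha hy }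
  · refine (sum_dn hd hy G).trans ?_
    exact sum_congr (filter_congr fun u _ => Iff.rfl) fun _ _ => rfl
  · refine H205.Lay.tlab_congr fun j h1 _ => ?_
    have h2 : 310 * b ≤ j := h1
    exact MX.unmixN_above (by omega)

end Vale.Agent.P313.NW.H285
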