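import Vale.Agent.P313.NW.H285.BrInst
import Vale.Agent.P313.NW.H136.BrOf

/-!
The bridge: the trees of the numeric walk have the numbers of the token system.
-/

namespace Vale.Agent.P313.NW.H285

open Finset Vale.Agent.P313.NW.CT Vale.Agent.P313.CT Vale.Agent.P313.NW.BP Vale.Agent.P313.NW.H899
  Vale.Agent.P313.H899 Vale.Agent.P313.NW.H644 Vale.Agent.P313.H644 Vale.Agent.P313.NW.H136
  Vale.Agent.P313.H136

variable {p : Par2} {d : SD} [hq0 : NeZero p.q]

theorem Dc_eq_dc (x0 : (lay p d).X0) : ∀ a, Dc p d x0 a = dc p d x0 a := by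
  intro a
  induction a with
  | zero => rfl
  | succ a ih =>
    funext y
    refine Prod.ext ?_ ?_
    · rw [dc_fst, ← ih]
      rfl
    · rw [dc_snd]
      rfl

/-- THE BRIDGE. -/
theorem bridge (hd : Dv p d) : Bridge p (theTSem p) d := by
  refine bridge_of hd.cm fun x0 => ?_
  have e : Dc p d x0 = dc p d x0 := funext (Dc_eq_dc x0)
  rw [e]
  exact br hd x0

end Vale.Agent.P313.NW.H285
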