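import Vale.Agent.P313.NW.BP.PhVal

/-!
Evaluation of `vq` and `phVal` at the individual phases.
-/

namespace Vale.Agent.P313.NW.BP

open Finset

variable (p : Par2) (S : Sem) (T : TSem) (w : ℕ → ℕ) (d : SD) (o : ℕ → ℕ) (q : ℕ) (t : Tp)

theorem vq_data : vq p d phData q ↔ q1 q < 3 ∧ q2 q < p.n ∧ e3 q < p.n := by
  unfold vq
  rw [if_pos rfl]

theorem vq_PJ0 : vq p d phPJ0 q ↔
    q1 q ≤ p.lw ∧ q2 q < p.r ∧ q3 q < p.n ∧ q4 q < p.n := by
  unfold vq phPJ0 phData phHop phT0 phT1 phT2 phPJ2 phP0 phP2 phZ1 phZZ phLT phLJ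
  rw [if_neg (by omega), if_neg (by omega), if_neg (by omega), if_pos (by omega)]

theorem vq_PJ2 : vq p d phPJ2 q ↔
    q1 q ≤ p.lw ∧ q2 q < p.r ∧ q3 q < p.n ∧ q4 q < p.n := by
  unfold vq phPJ0 phData phHop phT0 phT1 phT2 phPJ2 phP0 phP2 phZ1 phZZ phLT phLJ
  rw [if_neg (by omega), if_neg (by omega), if_neg (by omega), if_pos (by omega)]

theorem vq_P0 : vq p d phP0 q ↔
    q1 q < p.r ∧ q2 q < p.n ∧ e3 q < p.n := by
  unfold vq phPJ0 phData phHop phT0 phT1 phT2 phPJ2 phP0 phP2 phZ1 phZZ phLT phLJ
  rw [if_neg (by omega), if_neg (by omega), if_neg (by omega), if_neg (by omega),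
    if_pos (by omega)]

theorem vq_P2 : vq p d phP2 q ↔
    q1 q < p.r ∧ q2 q < p.n ∧ e3 q < p.n := by
  unfold vq phPJ0 phData phHop phT0 phT1 phT2 phPJ2 phP0 phP2 phZ1 phZZ phLT phLJ
  rw [if_neg (by omega), if_neg (by omega), if_neg (by omega), if_neg (by omega),
    if_pos (by omega)]

theorem vq_Z1 : vq p d phZ1 q ↔
    q < p.n := by
  unfold vq phPJ0 phData phHop phT0 phT1 phT2 phPJ2 phP0 phP2 phZ1 phZZ phLT phLJ
  rw [if_neg (by omega), if_neg (by omega), if_neg (by omega), if_neg (by omega),
    if_neg (by omega), if_pos (by omega)]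

theorem vq_ZZ : vq p d phZZ q ↔
    q < p.n := by
  unfold vq phPJ0 phData phHop phT0 phT1 phT2 phPJ2 phP0 phP2 phZ1 phZZ phLT phLJ
  rw [if_neg (by omega), if_neg (by omega), if_neg (by omega), if_neg (by omega),
    if_neg (by omega), if_pos (by omega)]

theorem vq_LJ : vq p d phLJ q ↔
    q1 q ≤ p.lw ∧ e2 q < p.n := by
  unfold vq phPJ0 phData phHop phT0 phT1 phT2 phPJ2 phP0 phP2 phZ1 phZZ phLT phLJ
  rw [if_neg (by omega), if_neg (by omega), if_neg (by omega), if_neg (by omega),
    if_neg (by omega), if_neg (by omega), if_neg (by omega), if_pos (by omega)]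

theorem vq_Pr0 : vq p d phPr0 q ↔
    q1 q < p.n ∧ e2 q < p.n := by
  unfold vq phPJ0 phData phHop phT0 phT1 phT2 phPJ2 phP0 phP2 phZ1 phZZ phLT phLJ phPr0
  rw [if_neg (by omega), if_neg (by omega), if_neg (by omega), if_neg (by omega),
    if_neg (by omega), if_neg (by omega), if_neg (by omega), if_neg (by omega)]

theorem vq_Pr2 : vq p d phPr2 q ↔
    q1 q < p.n ∧ e2 q < p.n := by
  unfold vq phPJ0 phData phHop phT0 phT1 phT2 phPJ2 phP0 phP2 phZ1 phZZ phLT phLJ phPr2
  rw [if_neg (by omega), if_neg (by omega), if_neg (by omega), if_neg (by omega),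
    if_neg (by omega), if_neg (by omega), if_neg (by omega), if_neg (by omega)]

theorem vq_H : vq p d phH q ↔
    q1 q < p.n ∧ e2 q < p.n := by
  unfold vq phPJ0 phData phHop phT0 phT1 phT2 phPJ2 phP0 phP2 phZ1 phZZ phLT phLJ phH
  rw [if_neg (by omega), if_neg (by omega), if_neg (by omega), if_neg (by omega),
    if_neg (by omega), if_neg (by omega), if_neg (by omega), if_neg (by omega)]

theorem vq_X : vq p d phX q ↔
    q1 q < p.n ∧ e2 q < p.n := by
  unfold vq phPJ0 phData phHop phT0 phT1 phT2 phPJ2 phP0 phP2 phZ1 phZZ phLT phLJ phX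
  rw [if_neg (by omega), if_neg (by omega), if_neg (by omega), if_neg (by omega),
    if_neg (by omega), if_neg (by omega), if_neg (by omega), if_neg (by omega)]

theorem vq_Phi : vq p d phPhi q ↔
    q1 q < p.n ∧ e2 q < p.n := by
  unfold vq phPJ0 phData phHop phT0 phT1 phT2 phPJ2 phP0 phP2 phZ1 phZZ phLT phLJ phPhi
  rw [if_neg (by omega), if_neg (by omega), if_neg (by omega), if_neg (by omega),
    if_neg (by omega), if_neg (by omega), if_neg (by omega), if_neg (by omega)]

theorem phVal_data : phVal p S T w d o phData q t =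
    if q1 q = 0 then d.A (q2 q) (e3 q) else if q1 q = 1 then d.c (q2 q) else d.k (q2 q) := by
  unfold phVal
  rw [if_pos rfl]

theorem phVal_PJ0 : phVal p S T w d o phPJ0 q t =
    avgV p T w d (fun _ => False) (o 0) (q1 q) (q2 q) (q3 q) (q4 q) t := by
  unfold phVal phData phHop phT0 phPJ0
  rw [if_neg (by omega), if_neg (by omega), if_neg (by omega), if_pos rfl]

theorem phVal_P0 : phVal p S T w d o phP0 q t =
    P0 p.toPar S d o (q1 q) (q2 q) (e3 q) := by
  unfold phVal phData phHop phT0 phPJ0 phP0
  rw [if_neg (by omega), if_neg (by omega), if_neg (by omega), if_neg (by omega), if_pos rfl]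

theorem phVal_Pr0 : phVal p S T w d o phPr0 q t =
    G0 p.toPar S d o (q1 q) (e2 q) := by
  unfold phVal phData phHop phT0 phPJ0 phP0 phPr0
  rw [if_neg (by omega), if_neg (by omega), if_neg (by omega), if_neg (by omega),
    if_neg (by omega), if_pos rfl]

theorem phVal_Z1 : phVal p S T w d o phZ1 q t =
    (open Classical in if Z1 p.toPar S d o q then 1 else 0) := by
  unfold phVal phData phHop phT0 phPJ0 phP0 phPr0 phZ1
  rw [if_neg (by omega), if_neg (by omega), if_neg (by omega), if_neg (by omega),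
    if_neg (by omega), if_neg (by omega), if_pos rfl]

theorem phVal_LJ : phVal p S T w d o phLJ q t =
    avgL p T w d (Z1 p.toPar S d o) (o 2) (q1 q) (e2 q) t := by
  unfold phVal phData phHop phT0 phPJ0 phP0 phPr0 phZ1 phT1 phLT phLJ
  rw [if_neg (by omega), if_neg (by omega), if_neg (by omega), if_neg (by omega),
    if_neg (by omega), if_neg (by omega), if_neg (by omega), if_neg (by omega), if_neg (by omega),
    if_pos rfl]

theorem phVal_ZZ : phVal p S T w d o phZZ q t =
    (open Classical in (if Zst p.toPar S d o q then 1 else 0) +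
      2 * (if Zs p.toPar S d o q then 1 else 0)) := by
  unfold phVal phData phHop phT0 phPJ0 phP0 phPr0 phZ1 phT1 phLT phLJ phZZ
  rw [if_neg (by omega), if_neg (by omega), if_neg (by omega), if_neg (by omega),
    if_neg (by omega), if_neg (by omega), if_neg (by omega), if_neg (by omega), if_neg (by omega),
    if_neg (by omega), if_pos rfl]

theorem phVal_PJ2 : phVal p S T w d o phPJ2 q t =
    avgV p T w d (Zs p.toPar S d o) (o 3) (q1 q) (q2 q) (q3 q) (q4 q) t := by
  unfold phVal phData phHop phT0 phPJ0 phP0 phPr0 phZ1 phT1 phLT phLJ phZZ phT2 phPJ2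
  rw [if_neg (by omega), if_neg (by omega), if_neg (by omega), if_neg (by omega),
    if_neg (by omega), if_neg (by omega), if_neg (by omega), if_neg (by omega), if_neg (by omega),
    if_neg (by omega), if_neg (by omega), if_neg (by omega), if_pos rfl]

theorem phVal_P2 : phVal p S T w d o phP2 q t =
    P2 p.toPar S d o (q1 q) (q2 q) (e3 q) := by
  unfold phVal phData phHop phT0 phPJ0 phP0 phPr0 phZ1 phT1 phLT phLJ phZZ phT2 phPJ2 phP2
  rw [if_neg (by omega), if_neg (by omega), if_neg (by omega), if_neg (by omega),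
    if_neg (by omega), if_neg (by omega), if_neg (by omega), if_neg (by omega), if_neg (by omega),
    if_neg (by omega), if_neg (by omega), if_neg (by omega), if_neg (by omega), if_pos rfl]

theorem phVal_Pr2 : phVal p S T w d o phPr2 q t =
    G2 p.toPar S d o (q1 q) (e2 q) := by
  unfold phVal phData phHop phT0 phPJ0 phP0 phPr0 phZ1 phT1 phLT phLJ phZZ phT2 phPJ2 phP2 phPr2
  rw [if_neg (by omega), if_neg (by omega), if_neg (by omega), if_neg (by omega),
    if_neg (by omega), if_neg (by omega), if_neg (by omega), if_neg (by omega), if_neg (by omega),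
    if_neg (by omega), if_neg (by omega), if_neg (by omega), if_neg (by omega), if_neg (by omega),
    if_pos rfl]

theorem phVal_H : phVal p S T w d o phH q t =
    (Hm p.toPar S d o (q1 q) (e2 q) + p.Om).toNat := by
  unfold phVal phData phHop phT0 phPJ0 phP0 phPr0 phZ1 phT1 phLT phLJ phZZ phT2 phPJ2 phP2 phPr2
    phH
  rw [if_neg (by omega), if_neg (by omega), if_neg (by omega), if_neg (by omega),
    if_neg (by omega), if_neg (by omega), if_neg (by omega), if_neg (by omega), if_neg (by omega),
    if_neg (by omega), if_neg (by omega), if_neg (by omega), if_neg (by omega), if_neg (by omega),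
    if_neg (by omega), if_pos rfl]

theorem phVal_X : phVal p S T w d o phX q t =
    (Xc p.toPar S d o (q1 q) (e2 q) + p.Om).toNat := by
  unfold phVal phData phHop phT0 phPJ0 phP0 phPr0 phZ1 phT1 phLT phLJ phZZ phT2 phPJ2 phP2 phPr2
    phH phX
  rw [if_neg (by omega), if_neg (by omega), if_neg (by omega), if_neg (by omega),
    if_neg (by omega), if_neg (by omega), if_neg (by omega), if_neg (by omega), if_neg (by omega),
    if_neg (by omega), if_neg (by omega), if_neg (by omega), if_neg (by omega), if_neg (by omega),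
    if_neg (by omega), if_neg (by omega), if_pos rfl]

theorem phVal_Phi : phVal p S T w d o phPhi q t =
    (Phi p.toPar S d o (q1 q) (e2 q) - 1).toNat := by
  unfold phVal phData phHop phT0 phPJ0 phP0 phPr0 phZ1 phT1 phLT phLJ phZZ phT2 phPJ2 phP2 phPr2
    phH phX phPhi
  rw [if_neg (by omega), if_neg (by omega), if_neg (by omega), if_neg (by omega),
    if_neg (by omega), if_neg (by omega), if_neg (by omega), if_neg (by omega), if_neg (by omega),
    if_neg (by omega), if_neg (by omega), if_neg (by omega), if_neg (by omega), if_neg (by omega),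
    if_neg (by omega), if_neg (by omega), if_neg (by omega)]

end Vale.Agent.P313.NW.BP
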