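import Vale.Agent.P313.NW.H285.WLF

set_option linter.all false

/-!
The phases DATA, PROD, Z1, ZZ, MAJORITY, H, X, Phi as functions in `TS.LF` of the level `l` and the
query `q`, which ask the lower levels.
-/

namespace Vale.Agent.P313.TS.F3W

open Finset TS Vale.Agent.P313.NW.BP
open Vale.Agent.P313.CT (ask stat bnd)

/-- Power, cut above the bound. -/
def pw (I : Inp) (u e : ℕ) : ℕ := min (u ^ e) (bnd I + 1)

variable {k : ℕ}

theorem LFst {f : Fn k} (hf : LF f) : LF (fun x a => stat x (f x a)) := CT.lf_stat hf

theorem LFask {f g : Fn k} (hf : LF f) (hg : LF g) : LF (fun x a => ask x (f x a) (g x a)) :=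
  CT.lf_ask hf hg

theorem LFpw {f g : Fn k} (hf : LF f) (hg : LF g) : LF (fun x a => pw x (f x a) (g x a)) :=
  LF.powMin hf hg CT.lf_bnd

/-- first component of the query -/
def u1 (q : ℕ) : ℕ := (Nat.unpair q).1
/-- second component of the query -/
def u2 (q : ℕ) : ℕ := (Nat.unpair q).2

@[simp] theorem u1_pair (a b : ℕ) : u1 (Nat.pair a b) = a := by simp [u1]
@[simp] theorem u2_pair (a b : ℕ) : u2 (Nat.pair a b) = b := by simp [u2]

theorem LFu1 {f : Fn k} (hf : LF f) : LF (fun x a => u1 (f x a)) := LF.unpair1 hf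
theorem LFu2 {f : Fn k} (hf : LF f) : LF (fun x a => u2 (f x a)) := LF.unpair2 hf

/-- The first index below `n` whose value occurs more than `n / 2` times among
`f 0, ..., f (n - 1)`, or `n`. -/
noncomputable def majI (n : ℕ) (f : ℕ → ℕ) : ℕ :=
  leastBelow (fun i => n < 2 * ∑ j ∈ range n, (if f j = f i then 1 else 0)) n

/-- Base level of the stage: the level of phase `0`. -/
def bs (I : Inp) (l : ℕ) : ℕ := l - l % stat I 19

theorem LFbs {f : Fn k} (hf : LF f) : LF (fun x a => bs x (f x a)) := by
  unfold bs
  repeat' with_reducible first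
    | assumption | exact LF.const _ | exact LF.zero | exact LF.proj _ | exact LF.pt1 _
    | exact LF.pt2 _ | exact LF.pt3 _ | exact LF.pt4 _ | exact LF.pt5 _ | apply LFst
    | apply LF.succ | apply LF.add | apply LF.mul | apply LF.sub | apply LF.div | apply LF.mod
    | apply LF.min | apply LF.max | apply LF.pair | apply LF.unpair1 | apply LF.unpair2
    | apply LF.ora | apply LF.log2 | apply LF.powConst | apply LF.ite | apply LF.sumC
    | apply LF.leastC | apply LFP.and | apply LFP.or | apply LFP.allC | apply LFP.exC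
    | apply LFP.ne | apply LFP.not | apply LFP.eq | apply LFP.le | apply LFP.lt | apply LFP.ge
    | apply LFP.gt | exact LFP.tt | exact LFP.ff | exact LF.weak (by assumption)
    | exact LF.weak (LF.weak (by assumption))
    | exact LF.weak (LF.weak (LF.weak (by assumption)))
    | exact LF.weak (LF.weak (LF.weak (LF.weak (by assumption))))

/-! ### DATA -/

/-- DATA in the first stage. -/
def fInit (cs : Inp → ℕ → ℕ → ℕ) (I : Inp) (tag v x : ℕ) : ℕ :=
  if tag = 0 then
    (if v + 1 < stat I 0 then
      (if x + 1 < stat I 0 then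
        ((if cs I v 0 = x then 1 else 0) + (if cs I v 1 = x then 1 else 0)) *
          (pw I (stat I 1) (stat I 2) / 2)
      else pw I (stat I 1) (stat I 2) - 2 * (pw I (stat I 1) (stat I 2) / 2))
    else if x = v then pw I (stat I 1) (stat I 2) else 0)
  else if tag = 1 then stat I 2 else if v + 1 = stat I 0 then stat I 5 else 0

/-- DATA in the other stages. -/
def fNext (I : Inp) (l tag v x : ℕ) : ℕ :=
  if tag = 0 then
    (if x + 1 = stat I 0 then
      pw I (stat I 1) (stat I 2) - ∑ y ∈ range (stat I 0 - 1), ask I (l - 1) (Nat.pair v y)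
    else ask I (l - 1) (Nat.pair v x))
  else if tag = 1 then
    ask I (l - stat I 19) (Nat.pair 1 (Nat.pair v 0)) +
      (if ask I (l - stat I 19 + 10) v % 2 = 1 ∧
        ask I (l - stat I 19) (Nat.pair 2 (Nat.pair v 0)) < stat I 5 then 1 else 0)
  else
    ask I (l - stat I 19) (Nat.pair 2 (Nat.pair v 0)) +
      (if 2 ≤ ask I (l - stat I 19 + 10) v then 0 else 1)

/-- DATA. -/
def fData (cs : Inp → ℕ → ℕ → ℕ) (I : Inp) (l q : ℕ) : ℕ :=
  if l = 0 then fInit cs I (u1 q) (u1 (u2 q)) (u2 (u2 q))
  else fNext I l (u1 q) (u1 (u2 q)) (u2 (u2 q))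

theorem LFInit {cs : Inp → ℕ → ℕ → ℕ} (hcs : LF (fun x a => cs x (a 0) (a 1) : Fn 2))
    {f g h : Fn k} (hf : LF f) (hg : LF g) (hh : LF h) :
    LF (fun x a => fInit cs x (f x a) (g x a) (h x a)) := by
  unfold fInit
  repeat' with_reducible first
    | assumption | exact LF.const _ | exact LF.zero | exact LF.proj _ | exact LF.pt1 _
    | exact LF.pt2 _ | exact LF.pt3 _ | exact LF.pt4 _ | exact LF.pt5 _ | apply LFst
    | apply LFpw | apply LF.comp2 hcs | apply LF.succ | apply LF.add | apply LF.mul
    | apply LF.sub | apply LF.div | apply LF.mod | apply LF.min | apply LF.max | apply LF.pair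
    | apply LF.unpair1 | apply LF.unpair2 | apply LF.ora | apply LF.log2 | apply LF.powConst
    | apply LF.ite | apply LF.sumC | apply LF.leastC | apply LFP.and | apply LFP.or
    | apply LFP.allC | apply LFP.exC | apply LFP.ne | apply LFP.not | apply LFP.eq
    | apply LFP.le | apply LFP.lt | apply LFP.ge | apply LFP.gt | exact LFP.tt | exact LFP.ff
    | exact LF.weak (by assumption) | exact LF.weak (LF.weak (by assumption))
    | exact LF.weak (LF.weak (LF.weak (by assumption)))
    | exact LF.weak (LF.weak (LF.weak (LF.weak (by assumption))))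

theorem LFNext {f g h u : Fn k} (hf : LF f) (hg : LF g) (hh : LF h) (hu : LF u) :
    LF (fun x a => fNext x (f x a) (g x a) (h x a) (u x a)) := by
  unfold fNext
  repeat' with_reducible first
    | assumption | exact LF.const _ | exact LF.zero | exact LF.proj _ | exact LF.pt1 _
    | exact LF.pt2 _ | exact LF.pt3 _ | exact LF.pt4 _ | exact LF.pt5 _ | apply LFst
    | apply LFpw | apply LFask | apply LF.succ | apply LF.add | apply LF.mul | apply LF.sub
    | apply LF.div | apply LF.mod | apply LF.min | apply LF.max | apply LF.pair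
    | apply LF.unpair1 | apply LF.unpair2 | apply LF.ora | apply LF.log2 | apply LF.powConst
    | apply LF.ite | apply LF.sumC | apply LF.leastC | apply LFP.and | apply LFP.or
    | apply LFP.allC | apply LFP.exC | apply LFP.ne | apply LFP.not | apply LFP.eq
    | apply LFP.le | apply LFP.lt | apply LFP.ge | apply LFP.gt | exact LFP.tt | exact LFP.ff
    | exact LF.weak (by assumption) | exact LF.weak (LF.weak (by assumption))
    | exact LF.weak (LF.weak (LF.weak (by assumption)))
    | exact LF.weak (LF.weak (LF.weak (LF.weak (by assumption))))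

theorem LFData {cs : Inp → ℕ → ℕ → ℕ} (hcs : LF (fun x a => cs x (a 0) (a 1) : Fn 2)) :
    LF (fun x a => fData cs x (a 0) (a 1) : Fn 2) := by
  unfold fData
  repeat' with_reducible first
    | assumption | exact LF.const _ | exact LF.zero | exact LF.proj _ | exact LF.pt1 _
    | exact LF.pt2 _ | exact LF.pt3 _ | exact LF.pt4 _ | exact LF.pt5 _ | apply LFu1
    | apply LFu2 | apply LFInit hcs | apply LFNext | apply LF.succ | apply LF.add
    | apply LF.mul | apply LF.sub | apply LF.div | apply LF.mod | apply LF.min | apply LF.max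
    | apply LF.pair | apply LF.unpair1 | apply LF.unpair2 | apply LF.ora | apply LF.log2
    | apply LF.powConst | apply LF.ite | apply LF.sumC | apply LF.leastC | apply LFP.and
    | apply LFP.or | apply LFP.allC | apply LFP.exC | apply LFP.ne | apply LFP.not
    | apply LFP.eq | apply LFP.le | apply LFP.lt | apply LFP.ge | apply LFP.gt | exact LFP.tt
    | exact LFP.ff | exact LF.weak (by assumption) | exact LF.weak (LF.weak (by assumption))
    | exact LF.weak (LF.weak (LF.weak (by assumption)))
    | exact LF.weak (LF.weak (LF.weak (LF.weak (by assumption))))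

/-! ### MAJORITY -/

/-- Index of the majority; the previous level is the level of averages. -/
noncomputable def fMajI (I : Inp) (l q : ℕ) : ℕ :=
  majI (stat I 17 + 1) (fun j => ask I (l - 1) (Nat.pair j q))

/-- MAJORITY. -/
noncomputable def fMaj (I : Inp) (l q : ℕ) : ℕ :=
  if fMajI I l q < stat I 17 + 1 then ask I (l - 1) (Nat.pair (fMajI I l q) q) else 0

theorem LFMajI {f g : Fn k} (hf : LF f) (hg : LF g) :
    LF (fun x a => fMajI x (f x a) (g x a)) := by
  unfold fMajI majI
  repeat' with_reducible first
    | assumption | exact LF.const _ | exact LF.zero | exact LF.proj _ | exact LF.pt1 _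
    | exact LF.pt2 _ | exact LF.pt3 _ | exact LF.pt4 _ | exact LF.pt5 _ | apply LFst
    | apply LFask | apply LF.succ | apply LF.add | apply LF.mul | apply LF.sub | apply LF.div
    | apply LF.mod | apply LF.min | apply LF.max | apply LF.pair | apply LF.unpair1
    | apply LF.unpair2 | apply LF.ora | apply LF.log2 | apply LF.powConst | apply LF.ite
    | apply LF.sumC | apply LF.leastC | apply LFP.and | apply LFP.or | apply LFP.allC
    | apply LFP.exC | apply LFP.ne | apply LFP.not | apply LFP.eq | apply LFP.le | apply LFP.lt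
    | apply LFP.ge | apply LFP.gt | exact LFP.tt | exact LFP.ff | exact LF.weak (by assumption)
    | exact LF.weak (LF.weak (by assumption))
    | exact LF.weak (LF.weak (LF.weak (by assumption)))
    | exact LF.weak (LF.weak (LF.weak (LF.weak (by assumption))))

theorem LFMaj' {f g : Fn k} (hf : LF f) (hg : LF g) :
    LF (fun x a => fMaj x (f x a) (g x a)) := by
  unfold fMaj
  repeat' with_reducible first
    | assumption | exact LF.const _ | exact LF.zero | exact LF.proj _ | exact LF.pt1 _
    | exact LF.pt2 _ | exact LF.pt3 _ | exact LF.pt4 _ | exact LF.pt5 _ | apply LFst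
    | apply LFask | apply LFMajI | apply LF.succ | apply LF.add | apply LF.mul | apply LF.sub
    | apply LF.div | apply LF.mod | apply LF.min | apply LF.max | apply LF.pair
    | apply LF.unpair1 | apply LF.unpair2 | apply LF.ora | apply LF.log2 | apply LF.powConst
    | apply LF.ite | apply LF.sumC | apply LF.leastC | apply LFP.and | apply LFP.or
    | apply LFP.allC | apply LFP.exC | apply LFP.ne | apply LFP.not | apply LFP.eq
    | apply LFP.le | apply LFP.lt | apply LFP.ge | apply LFP.gt | exact LFP.tt | exact LFP.ff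
    | exact LF.weak (by assumption) | exact LF.weak (LF.weak (by assumption))
    | exact LF.weak (LF.weak (LF.weak (by assumption)))
    | exact LF.weak (LF.weak (LF.weak (LF.weak (by assumption))))

theorem LFMaj : LF (fun x a => fMaj x (a 0) (a 1) : Fn 2) := LFMaj' (LF.proj 0) (LF.proj 1)

/-! ### PRODUCTS -/

/-- Digits of the hash functions. -/
def fg (I : Inp) (i : ℕ) : ℕ :=
  stat I (64 + 6 * stat I 20 + (2 * stat I 15 + 2 * stat I 17 + i))

/-- Offset number `i` of the stage of the level `l`. -/
def fo (I : Inp) (l i : ℕ) : ℕ := stat I (64 + 6 * (l / 18) + i)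

/-- Rounding of `s / Q` with the offset `o`. -/
def fUp (I : Inp) (o s : ℕ) : ℕ :=
  (stat I 7 * stat I 10 * s + o * (stat I 14 * 1)) / (stat I 7 * (stat I 14 * 1)) + 1

theorem LFfg : LF (fun x a => fg x (a 0) : Fn 1) := by
  unfold fg
  exact LFst (((LF.const 64).add ((LF.const 6).mul (LFst (LF.const 20)))).add
    ((((LF.const 2).mul (LFst (LF.const 15))).add ((LF.const 2).mul (LFst (LF.const 17)))).add
      (LF.proj 0)))

theorem LFfo {f g : Fn k} (hf : LF f) (hg : LF g) : LF (fun x a => fo x (f x a) (g x a)) := by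
  unfold fo
  exact LFst (((LF.const 64).add ((LF.const 6).mul (hf.div (LF.const 18)))).add hg)

theorem LFfUp {f g : Fn k} (hf : LF f) (hg : LF g) : LF (fun x a => fUp x (f x a) (g x a)) := by
  unfold fUp
  exact ((((LFst (LF.const 7)).mul (LFst (LF.const 10))).mul hg).add
    (hf.mul ((LFst (LF.const 14)).mul (LF.const 1)))).div
      ((LFst (LF.const 7)).mul ((LFst (LF.const 14)).mul (LF.const 1))) |>.add (LF.const 1)

/-- Factors of kind `0`; the previous level is MAJORITY of kind `0`. -/
def fFac0 (I : Inp) (l i v x : ℕ) : ℕ :=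
  (if v = x then stat I 10 else 0) +
    (if i < stat I 3 then ask I (l - 1) (Nat.pair i (Nat.pair v x)) else 0)

/-- `kp i`. -/
def fKp (I : Inp) (i : ℕ) : ℕ :=
  (fun t => t ^ 2 / stat I 10)^[i] (stat I 10 - stat I 10 / pw I 2 (stat I 4))

/-- Factors of kind `2`; the previous level is MAJORITY of kind `2`. -/
def fFac2 (I : Inp) (l i v x : ℕ) : ℕ :=
  (if v = x then stat I 10 else 0) +
    (if i < stat I 3 then fKp I i * ask I (l - 1) (Nat.pair i (Nat.pair v x)) / stat I 10 else 0)

/-- Steps of the walk of kind `0`. -/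
def fSt0 (I : Inp) (l i v x : ℕ) : ℕ := fFac0 I l (pw I 2 (stat I 8) - 1 - i) v x

/-- Steps of the walk of kind `2`. -/
def fSt2 (I : Inp) (l i v x : ℕ) : ℕ := fFac2 I l (pw I 2 (stat I 8) - 1 - i) v x

/-- PRODUCT of kind `0`. -/
def fPr0 (I : Inp) (l q : ℕ) : ℕ :=
  fUp I (fo I l 1) (pw I 4 (pw I 2 (stat I 8)) *
    cntR (stat I 14) (stat I 0) (4 * stat I 10) (fg I) (stat I 8) (fSt0 I l) (u1 q) (u2 q)
      (pw I 2 (stat I 8)))

/-- PRODUCT of kind `2`. -/
def fPr2 (I : Inp) (l q : ℕ) : ℕ :=
  fUp I (fo I l 4) (pw I 4 (pw I 2 (stat I 8)) *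
    cntR (stat I 14) (stat I 0) (4 * stat I 10) (fg I) (stat I 8) (fSt2 I l) (u1 q) (u2 q)
      (pw I 2 (stat I 8)))

theorem LFFac0 {f g h u : Fn k} (hf : LF f) (hg : LF g) (hh : LF h) (hu : LF u) :
    LF (fun x a => fFac0 x (f x a) (g x a) (h x a) (u x a)) := by
  unfold fFac0
  repeat' with_reducible first
    | assumption | exact LF.const _ | exact LF.zero | exact LF.proj _ | exact LF.pt1 _
    | exact LF.pt2 _ | exact LF.pt3 _ | exact LF.pt4 _ | exact LF.pt5 _ | apply LFst
    | apply LFask | apply LF.succ | apply LF.add | apply LF.mul | apply LF.sub | apply LF.div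
    | apply LF.mod | apply LF.min | apply LF.max | apply LF.pair | apply LF.unpair1
    | apply LF.unpair2 | apply LF.ora | apply LF.log2 | apply LF.powConst | apply LF.ite
    | apply LF.sumC | apply LF.leastC | apply LFP.and | apply LFP.or | apply LFP.allC
    | apply LFP.exC | apply LFP.ne | apply LFP.not | apply LFP.eq | apply LFP.le | apply LFP.lt
    | apply LFP.ge | apply LFP.gt | exact LFP.tt | exact LFP.ff | exact LF.weak (by assumption)
    | exact LF.weak (LF.weak (by assumption))
    | exact LF.weak (LF.weak (LF.weak (by assumption)))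
    | exact LF.weak (LF.weak (LF.weak (LF.weak (by assumption))))

theorem fKp_le (Th z i : ℕ) (hz : z ≤ Th) : (fun t => t ^ 2 / Th)^[i] z ≤ Th := by
  induction i with
  | zero => simpa using hz
  | succ i ih =>
    rw [Function.iterate_succ_apply']
    rcases Nat.eq_zero_or_pos Th with h | h
    · subst h; simp
    · calc (fun t => t ^ 2 / Th) ((fun t => t ^ 2 / Th)^[i] z) ≤ Th ^ 2 / Th :=
          Nat.div_le_div_right (Nat.pow_le_pow_left ih 2)
        _ = Th := by rw [pow_two, Nat.mul_div_cancel _ h]

theorem LFKp {f : Fn k} (hf : LF f) : LF (fun x a => fKp x (f x a)) := by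
  have h10 : LF (fun x _ => stat x 10 : Fn k) := LFst (LF.const 10)
  have h1 : LF (fun x b => (b 0) ^ 2 / stat x 10 : Fn (k + 1)) := by
    repeat' with_reducible first
      | assumption | exact LF.const _ | exact LF.zero | exact LF.proj _ | exact LF.pt1 _
      | exact LF.pt2 _ | exact LF.pt3 _ | exact LF.pt4 _ | exact LF.pt5 _ | apply LFst
      | apply LF.succ | apply LF.add | apply LF.mul | apply LF.sub | apply LF.div
      | apply LF.mod | apply LF.min | apply LF.max | apply LF.pair | apply LF.unpair1
      | apply LF.unpair2 | apply LF.ora | apply LF.log2 | apply LF.powConst | apply LF.ite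
      | apply LF.sumC | apply LF.leastC | apply LFP.and | apply LFP.or | apply LFP.allC
      | apply LFP.exC | apply LFP.ne | apply LFP.not | apply LFP.eq | apply LFP.le
      | apply LFP.lt | apply LFP.ge | apply LFP.gt | exact LFP.tt | exact LFP.ff
      | exact LF.weak (by assumption) | exact LF.weak (LF.weak (by assumption))
      | exact LF.weak (LF.weak (LF.weak (by assumption)))
      | exact LF.weak (LF.weak (LF.weak (LF.weak (by assumption))))
  have h2 : LF (fun x _ => stat x 10 - stat x 10 / pw x 2 (stat x 4) : Fn k) := by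
    repeat' with_reducible first
      | assumption | exact LF.const _ | exact LF.zero | exact LF.proj _ | exact LF.pt1 _
      | exact LF.pt2 _ | exact LF.pt3 _ | exact LF.pt4 _ | exact LF.pt5 _ | apply LFst
      | apply LFpw | apply LF.succ | apply LF.add | apply LF.mul | apply LF.sub | apply LF.div
      | apply LF.mod | apply LF.min | apply LF.max | apply LF.pair | apply LF.unpair1
      | apply LF.unpair2 | apply LF.ora | apply LF.log2 | apply LF.powConst | apply LF.ite
      | apply LF.sumC | apply LF.leastC | apply LFP.and | apply LFP.or | apply LFP.allC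
      | apply LFP.exC | apply LFP.ne | apply LFP.not | apply LFP.eq | apply LFP.le
      | apply LFP.lt | apply LFP.ge | apply LFP.gt | exact LFP.tt | exact LFP.ff
      | exact LF.weak (by assumption) | exact LF.weak (LF.weak (by assumption))
      | exact LF.weak (LF.weak (LF.weak (by assumption)))
      | exact LF.weak (LF.weak (LF.weak (LF.weak (by assumption))))
  have h3 := LF.iterate (k := k) (f := fun x b => (b 0) ^ 2 / stat x 10)
    (g := fun x _ => stat x 10 - stat x 10 / pw x 2 (stat x 4)) (n := f)
    h1 h2 hf (fun x _ => stat x 10) h10.pb (fun x a i _ => fKp_le _ _ _ (Nat.sub_le _ _))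
  exact h3.congr fun x a => rfl

theorem LFFac2 {f g h u : Fn k} (hf : LF f) (hg : LF g) (hh : LF h) (hu : LF u) :
    LF (fun x a => fFac2 x (f x a) (g x a) (h x a) (u x a)) := by
  unfold fFac2
  repeat' with_reducible first
    | assumption | exact LF.const _ | exact LF.zero | exact LF.proj _ | exact LF.pt1 _
    | exact LF.pt2 _ | exact LF.pt3 _ | exact LF.pt4 _ | exact LF.pt5 _ | apply LFst
    | apply LFask | apply LFKp | apply LF.succ | apply LF.add | apply LF.mul | apply LF.sub
    | apply LF.div | apply LF.mod | apply LF.min | apply LF.max | apply LF.pair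
    | apply LF.unpair1 | apply LF.unpair2 | apply LF.ora | apply LF.log2 | apply LF.powConst
    | apply LF.ite | apply LF.sumC | apply LF.leastC | apply LFP.and | apply LFP.or
    | apply LFP.allC | apply LFP.exC | apply LFP.ne | apply LFP.not | apply LFP.eq
    | apply LFP.le | apply LFP.lt | apply LFP.ge | apply LFP.gt | exact LFP.tt | exact LFP.ff
    | exact LF.weak (by assumption) | exact LF.weak (LF.weak (by assumption))
    | exact LF.weak (LF.weak (LF.weak (by assumption)))
    | exact LF.weak (LF.weak (LF.weak (LF.weak (by assumption))))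

theorem LFSt0 : LF (fun x a => fSt0 x (a 0) (a 1) (a 2) (a 3) : Fn 4) := by
  unfold fSt0
  exact LFFac0 (LF.proj 0) (((LFpw (LF.const 2) (LFst (LF.const 8))).sub (LF.const 1)).sub
    (LF.proj 1)) (LF.proj 2) (LF.proj 3)

theorem LFSt2 : LF (fun x a => fSt2 x (a 0) (a 1) (a 2) (a 3) : Fn 4) := by
  unfold fSt2
  exact LFFac2 (LF.proj 0) (((LFpw (LF.const 2) (LFst (LF.const 8))).sub (LF.const 1)).sub
    (LF.proj 1)) (LF.proj 2) (LF.proj 3)

theorem LFPr0 : LF (fun x a => fPr0 x (a 0) (a 1) : Fn 2) := by
  unfold fPr0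
  have h8 : LF (fun x _ => stat x 8 : Fn 2) := LFst (LF.const 8)
  have hp : LF (fun x _ => pw x 2 (stat x 8) : Fn 2) := LFpw (LF.const 2) h8
  exact LFfUp (LFfo (LF.proj 0) (LF.const 1)) ((LFpw (LF.const 4) hp).mul
    (LFcntR LFfg LFSt0 (LF.proj 0) (LFst (LF.const 14)) (LFst (LF.const 0))
      ((LF.const 4).mul (LFst (LF.const 10))) h8 (LFu1 (LF.proj 1)) (LFu2 (LF.proj 1)) hp))

theorem LFPr2 : LF (fun x a => fPr2 x (a 0) (a 1) : Fn 2) := by
  unfold fPr2
  have h8 : LF (fun x _ => stat x 8 : Fn 2) := LFst (LF.const 8)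
  have hp : LF (fun x _ => pw x 2 (stat x 8) : Fn 2) := LFpw (LF.const 2) h8
  exact LFfUp (LFfo (LF.proj 0) (LF.const 4)) ((LFpw (LF.const 4) hp).mul
    (LFcntR LFfg LFSt2 (LF.proj 0) (LFst (LF.const 14)) (LFst (LF.const 0))
      ((LF.const 4).mul (LFst (LF.const 10))) h8 (LFu1 (LF.proj 1)) (LFu2 (LF.proj 1)) hp))

/-! ### Z1 -/

/-- `q ^ (c v - b)`. -/
def fH (I : Inp) (l v : ℕ) : ℕ :=
  pw I (stat I 1) (ask I (bs I l) (Nat.pair 1 (Nat.pair v 0)) - stat I 2)

/-- Z1. -/
def fZ1 (I : Inp) (l x : ℕ) : ℕ :=
  if stat I 1 ^ 4 * pw I (stat I 1) (ask I (bs I l) (Nat.pair 1 (Nat.pair x 0))) ≤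
      ∑ v ∈ range (stat I 0), fH I l v * ask I (bs I l) (Nat.pair 0 (Nat.pair v x)) ∨
    stat I 1 ^ 4 * fH I l x * stat I 10 ≤
      ∑ v ∈ range (stat I 0), fH I l v * ask I (l - 1) (Nat.pair v x) then 1 else 0

theorem LFH {f g : Fn k} (hf : LF f) (hg : LF g) : LF (fun x a => fH x (f x a) (g x a)) := by
  unfold fH
  repeat' with_reducible first
    | assumption | exact LF.const _ | exact LF.zero | exact LF.proj _ | exact LF.pt1 _
    | exact LF.pt2 _ | exact LF.pt3 _ | exact LF.pt4 _ | exact LF.pt5 _ | apply LFst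
    | apply LFpw | apply LFask | apply LFbs | apply LF.succ | apply LF.add | apply LF.mul
    | apply LF.sub | apply LF.div | apply LF.mod | apply LF.min | apply LF.max | apply LF.pair
    | apply LF.unpair1 | apply LF.unpair2 | apply LF.ora | apply LF.log2 | apply LF.powConst
    | apply LF.ite | apply LF.sumC | apply LF.leastC | apply LFP.and | apply LFP.or
    | apply LFP.allC | apply LFP.exC | apply LFP.ne | apply LFP.not | apply LFP.eq
    | apply LFP.le | apply LFP.lt | apply LFP.ge | apply LFP.gt | exact LFP.tt | exact LFP.ff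
    | exact LF.weak (by assumption) | exact LF.weak (LF.weak (by assumption))
    | exact LF.weak (LF.weak (LF.weak (by assumption)))
    | exact LF.weak (LF.weak (LF.weak (LF.weak (by assumption))))

theorem LFZ1 : LF (fun x a => fZ1 x (a 0) (a 1) : Fn 2) := by
  unfold fZ1
  repeat' with_reducible first
    | assumption | exact LF.const _ | exact LF.zero | exact LF.proj _ | exact LF.pt1 _
    | exact LF.pt2 _ | exact LF.pt3 _ | exact LF.pt4 _ | exact LF.pt5 _ | apply LFst
    | apply LFpw | apply LFask | apply LFbs | apply LFH | apply LF.succ | apply LF.add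
    | apply LF.mul | apply LF.sub | apply LF.div | apply LF.mod | apply LF.min | apply LF.max
    | apply LF.pair | apply LF.unpair1 | apply LF.unpair2 | apply LF.ora | apply LF.log2
    | apply LF.powConst | apply LF.ite | apply LF.sumC | apply LF.leastC | apply LFP.and
    | apply LFP.or | apply LFP.allC | apply LFP.exC | apply LFP.ne | apply LFP.not
    | apply LFP.eq | apply LFP.le | apply LFP.lt | apply LFP.ge | apply LFP.gt | exact LFP.tt
    | exact LFP.ff | exact LF.weak (by assumption) | exact LF.weak (LF.weak (by assumption))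
    | exact LF.weak (LF.weak (LF.weak (by assumption)))
    | exact LF.weak (LF.weak (LF.weak (LF.weak (by assumption))))

/-! ### ZZ -/

/-- ZZ: MAJORITY for the loss, `Zst` and `Zs`. -/
noncomputable def fZZ (I : Inp) (l x : ℕ) : ℕ :=
  if ask I (bs I l + 6) x = 1 ∨ 2 * stat I 10 ≤ fMaj I l x * stat I 1 ^ 7 then 3
  else if stat I 5 ≤ ask I (bs I l) (Nat.pair 2 (Nat.pair x 0)) then 2 else 0

theorem LFZZ : LF (fun x a => fZZ x (a 0) (a 1) : Fn 2) := by
  unfold fZZ
  repeat' with_reducible first
    | assumption | exact LF.const _ | exact LF.zero | exact LF.proj _ | exact LF.pt1 _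
    | exact LF.pt2 _ | exact LF.pt3 _ | exact LF.pt4 _ | exact LF.pt5 _ | apply LFst
    | apply LFask | apply LFbs | apply LFMaj' | apply LF.succ | apply LF.add | apply LF.mul
    | apply LF.sub | apply LF.div | apply LF.mod | apply LF.min | apply LF.max | apply LF.pair
    | apply LF.unpair1 | apply LF.unpair2 | apply LF.ora | apply LF.log2 | apply LF.powConst
    | apply LF.ite | apply LF.sumC | apply LF.leastC | apply LFP.and | apply LFP.or
    | apply LFP.allC | apply LFP.exC | apply LFP.ne | apply LFP.not | apply LFP.eq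
    | apply LFP.le | apply LFP.lt | apply LFP.ge | apply LFP.gt | exact LFP.tt | exact LFP.ff
    | exact LF.weak (by assumption) | exact LF.weak (LF.weak (by assumption))
    | exact LF.weak (LF.weak (LF.weak (by assumption)))
    | exact LF.weak (LF.weak (LF.weak (LF.weak (by assumption))))

/-! ### Newton -/

/-- `2 ≤ isZs` says that `x` is in `Zs`. -/
def isZs (I : Inp) (l x : ℕ) : ℕ := ask I (bs I l + 10) x

/-- Positive part of `Lm`. -/
def fLp (I : Inp) (v x : ℕ) : ℕ := if v = x then stat I 10 else 0

/-- Negative part of `Lm`. -/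
def fLn (I : Inp) (l v x : ℕ) : ℕ :=
  if 2 ≤ isZs I l x then 0
  else (pw I 2 (stat I 4) - 1) * stat I 6 * ask I (bs I l) (Nat.pair 0 (Nat.pair v x))

theorem LFisZs {f g : Fn k} (hf : LF f) (hg : LF g) : LF (fun x a => isZs x (f x a) (g x a)) := by
  unfold isZs
  repeat' with_reducible first
    | assumption | exact LF.const _ | exact LF.zero | exact LF.proj _ | exact LF.pt1 _
    | exact LF.pt2 _ | exact LF.pt3 _ | exact LF.pt4 _ | exact LF.pt5 _ | apply LFst
    | apply LFask | apply LFbs | apply LF.succ | apply LF.add | apply LF.mul | apply LF.sub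
    | apply LF.div | apply LF.mod | apply LF.min | apply LF.max | apply LF.pair
    | apply LF.unpair1 | apply LF.unpair2 | apply LF.ora | apply LF.log2 | apply LF.powConst
    | apply LF.ite | apply LF.sumC | apply LF.leastC | apply LFP.and | apply LFP.or
    | apply LFP.allC | apply LFP.exC | apply LFP.ne | apply LFP.not | apply LFP.eq
    | apply LFP.le | apply LFP.lt | apply LFP.ge | apply LFP.gt | exact LFP.tt | exact LFP.ff
    | exact LF.weak (by assumption) | exact LF.weak (LF.weak (by assumption))
    | exact LF.weak (LF.weak (LF.weak (by assumption)))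
    | exact LF.weak (LF.weak (LF.weak (LF.weak (by assumption))))

theorem LFLp {f g : Fn k} (hf : LF f) (hg : LF g) : LF (fun x a => fLp x (f x a) (g x a)) := by
  unfold fLp
  repeat' with_reducible first
    | assumption | exact LF.const _ | exact LF.zero | exact LF.proj _ | exact LF.pt1 _
    | exact LF.pt2 _ | exact LF.pt3 _ | exact LF.pt4 _ | exact LF.pt5 _ | apply LFst
    | apply LF.succ | apply LF.add | apply LF.mul | apply LF.sub | apply LF.div | apply LF.mod
    | apply LF.min | apply LF.max | apply LF.pair | apply LF.unpair1 | apply LF.unpair2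
    | apply LF.ora | apply LF.log2 | apply LF.powConst | apply LF.ite | apply LF.sumC
    | apply LF.leastC | apply LFP.and | apply LFP.or | apply LFP.allC | apply LFP.exC
    | apply LFP.ne | apply LFP.not | apply LFP.eq | apply LFP.le | apply LFP.lt | apply LFP.ge
    | apply LFP.gt | exact LFP.tt | exact LFP.ff | exact LF.weak (by assumption)
    | exact LF.weak (LF.weak (by assumption))
    | exact LF.weak (LF.weak (LF.weak (by assumption)))
    | exact LF.weak (LF.weak (LF.weak (LF.weak (by assumption))))

theorem LFLn {f g h : Fn k} (hf : LF f) (hg : LF g) (hh : LF h) :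
    LF (fun x a => fLn x (f x a) (g x a) (h x a)) := by
  unfold fLn
  repeat' with_reducible first
    | assumption | exact LF.const _ | exact LF.zero | exact LF.proj _ | exact LF.pt1 _
    | exact LF.pt2 _ | exact LF.pt3 _ | exact LF.pt4 _ | exact LF.pt5 _ | apply LFst
    | apply LFask | apply LFbs | apply LFpw | apply LFisZs | apply LF.succ | apply LF.add
    | apply LF.mul | apply LF.sub | apply LF.div | apply LF.mod | apply LF.min | apply LF.max
    | apply LF.pair | apply LF.unpair1 | apply LF.unpair2 | apply LF.ora | apply LF.log2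
    | apply LF.powConst | apply LF.ite | apply LF.sumC | apply LF.leastC | apply LFP.and
    | apply LFP.or | apply LFP.allC | apply LFP.exC | apply LFP.ne | apply LFP.not
    | apply LFP.eq | apply LFP.le | apply LFP.lt | apply LFP.ge | apply LFP.gt | exact LFP.tt
    | exact LFP.ff | exact LF.weak (by assumption) | exact LF.weak (LF.weak (by assumption))
    | exact LF.weak (LF.weak (LF.weak (by assumption)))
    | exact LF.weak (LF.weak (LF.weak (LF.weak (by assumption))))

/-- H: `2 I - G L` (coded with offset `Om`); the previous level is PROD of kind `2`. The product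
`∑ G L` is `X - Y`. -/
def fHn (I : Inp) (l v y : ℕ) : ℕ :=
  (if v = y then 2 * stat I 10 else 0) + 2 * stat I 18 -
    (∑ u ∈ range (stat I 0), ask I (l - 1) (Nat.pair v u) * fLp I u y + stat I 18 * stat I 10 -
      ∑ u ∈ range (stat I 0), ask I (l - 1) (Nat.pair v u) * fLn I l u y) / stat I 10

/-- Step of the walk of the Neumann series; level `l - 1` is `H`, level `l - 2` is PROD of
kind `2`. -/
def fXst (I : Inp) (l i w w' : ℕ) : ℕ :=
  if w / 2 % 2 = 0 then
    if w' / 2 % 2 = 0 then
      if w % 2 = w' % 2 then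
        ask I (l - 1) (Nat.pair (w / 4) (w' / 4)) -
          (stat I 18 + if w / 4 = w' / 4 then stat I 10 else 0)
      else (stat I 18 + if w / 4 = w' / 4 then stat I 10 else 0) -
        ask I (l - 1) (Nat.pair (w / 4) (w' / 4))
    else if w % 2 = w' % 2 then ask I (l - 2) (Nat.pair (w / 4) (w' / 4)) else 0
  else if w = w' then stat I 10 else 0

/-- Estimate of the positive (`σ = 0`) or negative (`σ = 1`) part of the Neumann series. -/
def fXp (I : Inp) (l v x σ : ℕ) : ℕ :=
  fUp I (fo I l 5) (pw I 2 ((stat I 3 + 4) * pw I 2 (stat I 9)) *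
    cntR (stat I 14) (4 * stat I 0) (pw I 2 (stat I 3 + 4) * stat I 10) (fg I) (stat I 9)
      (fXst I l) (4 * v) (4 * x + 2 + σ) (pw I 2 (stat I 9)))

/-- X. -/
def fX (I : Inp) (l q : ℕ) : ℕ :=
  fXp I l (u1 q) (u2 q) 0 + stat I 18 - fXp I l (u1 q) (u2 q) 1

/-- H. -/
def fHH (I : Inp) (l q : ℕ) : ℕ := fHn I l (u1 q) (u2 q)

/-- Phi, minus 1, cut at 0; the previous level is `X`. -/
def fPhi' (I : Inp) (l v x : ℕ) : ℕ :=
  (∑ y ∈ range (stat I 0), ask I (l - 1) (Nat.pair v y) *
      ask I (bs I l) (Nat.pair 0 (Nat.pair y x)) *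
      (if 2 ≤ isZs I l x then pw I 2 (stat I 4) else 1) -
    ∑ y ∈ range (stat I 0), stat I 18 * ask I (bs I l) (Nat.pair 0 (Nat.pair y x)) *
      (if 2 ≤ isZs I l x then pw I 2 (stat I 4) else 1)) / (stat I 10 * pw I 2 (stat I 4)) - 1

/-- Phi. -/
def fPhi (I : Inp) (l q : ℕ) : ℕ := fPhi' I l (u1 q) (u2 q)

theorem LFHH : LF (fun x a => fHH x (a 0) (a 1) : Fn 2) := by
  unfold fHH fHn
  repeat' with_reducible first
    | assumption | exact LF.const _ | exact LF.zero | exact LF.proj _ | exact LF.pt1 _
    | exact LF.pt2 _ | exact LF.pt3 _ | exact LF.pt4 _ | exact LF.pt5 _ | apply LFst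
    | apply LFask | apply LFu1 | apply LFu2 | apply LFLp | apply LFLn | apply LF.succ
    | apply LF.add | apply LF.mul | apply LF.sub | apply LF.div | apply LF.mod | apply LF.min
    | apply LF.max | apply LF.pair | apply LF.unpair1 | apply LF.unpair2 | apply LF.ora
    | apply LF.log2 | apply LF.powConst | apply LF.ite | apply LF.sumC | apply LF.leastC
    | apply LFP.and | apply LFP.or | apply LFP.allC | apply LFP.exC | apply LFP.ne
    | apply LFP.not | apply LFP.eq | apply LFP.le | apply LFP.lt | apply LFP.ge | apply LFP.gt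
    | exact LFP.tt | exact LFP.ff | exact LF.weak (by assumption)
    | exact LF.weak (LF.weak (by assumption))
    | exact LF.weak (LF.weak (LF.weak (by assumption)))
    | exact LF.weak (LF.weak (LF.weak (LF.weak (by assumption))))

theorem LFXst : LF (fun x a => fXst x (a 0) (a 1) (a 2) (a 3) : Fn 4) := by
  unfold fXst
  repeat' with_reducible first
    | assumption | exact LF.const _ | exact LF.zero | exact LF.proj _ | exact LF.pt1 _
    | exact LF.pt2 _ | exact LF.pt3 _ | exact LF.pt4 _ | exact LF.pt5 _ | apply LFst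
    | apply LFask | apply LF.succ | apply LF.add | apply LF.mul | apply LF.sub | apply LF.div
    | apply LF.mod | apply LF.min | apply LF.max | apply LF.pair | apply LF.unpair1
    | apply LF.unpair2 | apply LF.ora | apply LF.log2 | apply LF.powConst | apply LF.ite
    | apply LF.sumC | apply LF.leastC | apply LFP.and | apply LFP.or | apply LFP.allC
    | apply LFP.exC | apply LFP.ne | apply LFP.not | apply LFP.eq | apply LFP.le | apply LFP.lt
    | apply LFP.ge | apply LFP.gt | exact LFP.tt | exact LFP.ff | exact LF.weak (by assumption)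
    | exact LF.weak (LF.weak (by assumption))
    | exact LF.weak (LF.weak (LF.weak (by assumption)))
    | exact LF.weak (LF.weak (LF.weak (LF.weak (by assumption))))

theorem LFXp {f g h u : Fn k} (hf : LF f) (hg : LF g) (hh : LF h) (hu : LF u) :
    LF (fun x a => fXp x (f x a) (g x a) (h x a) (u x a)) := by
  unfold fXp
  have h9 : LF (fun x _ => stat x 9 : Fn k) := LFst (LF.const 9)
  have hp : LF (fun x _ => pw x 2 (stat x 9) : Fn k) := LFpw (LF.const 2) h9
  have hr : LF (fun x _ => stat x 3 + 4 : Fn k) := (LFst (LF.const 3)).add (LF.const 4)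
  exact LFfUp (LFfo hf (LF.const 5)) ((LFpw (LF.const 2) (hr.mul hp)).mul
    (LFcntR LFfg LFXst hf (LFst (LF.const 14)) ((LF.const 4).mul (LFst (LF.const 0)))
      ((LFpw (LF.const 2) hr).mul (LFst (LF.const 10))) h9 ((LF.const 4).mul hg)
      ((((LF.const 4).mul hh).add (LF.const 2)).add hu) hp))

theorem LFX : LF (fun x a => fX x (a 0) (a 1) : Fn 2) := by
  unfold fX
  exact ((LFXp (LF.proj 0) (LFu1 (LF.proj 1)) (LFu2 (LF.proj 1)) (LF.const 0)).add
    (LFst (LF.const 18))).sub (LFXp (LF.proj 0) (LFu1 (LF.proj 1)) (LFu2 (LF.proj 1)) (LF.const 1))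

theorem LFPhi : LF (fun x a => fPhi x (a 0) (a 1) : Fn 2) := by
  unfold fPhi fPhi'
  repeat' with_reducible first
    | assumption | exact LF.const _ | exact LF.zero | exact LF.proj _ | exact LF.pt1 _
    | exact LF.pt2 _ | exact LF.pt3 _ | exact LF.pt4 _ | exact LF.pt5 _ | apply LFst
    | apply LFask | apply LFbs | apply LFpw | apply LFu1 | apply LFu2 | apply LFisZs
    | apply LF.succ | apply LF.add | apply LF.mul | apply LF.sub | apply LF.div | apply LF.mod
    | apply LF.min | apply LF.max | apply LF.pair | apply LF.unpair1 | apply LF.unpair2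
    | apply LF.ora | apply LF.log2 | apply LF.powConst | apply LF.ite | apply LF.sumC
    | apply LF.leastC | apply LFP.and | apply LFP.or | apply LFP.allC | apply LFP.exC
    | apply LFP.ne | apply LFP.not | apply LFP.eq | apply LFP.le | apply LFP.lt | apply LFP.ge
    | apply LFP.gt | exact LFP.tt | exact LFP.ff | exact LF.weak (by assumption)
    | exact LF.weak (LF.weak (by assumption))
    | exact LF.weak (LF.weak (LF.weak (by assumption)))
    | exact LF.weak (LF.weak (LF.weak (LF.weak (by assumption))))

/-- The functions with two arguments, in the form of programs. -/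
def fn2 (f : Inp → ℕ → ℕ → ℕ) : Fn 2 := fun I a => f I (a 0) (a 1)

end Vale.Agent.P313.TS.F3W
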