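import Vale.Agent.P313.NW.H285.Ph
import Vale.Agent.P313.NW.H899.Master

/-!
# Block F3: programs and goals of the phases DATA, MAJORITY, PROD, Z1, ZZ, H, X, Phi
-/

namespace Vale.Agent.P313.NW.TS.F3

open Finset Vale.Agent.P313.TS.F3W Vale.Agent.P313.NW.BP Vale.Agent.P313.NW.CT Vale.Agent.P313.CT
open Vale.Agent.P313.NW.H899 (Ctx)

/-- The program which computes `f level query`. -/
def pureP (f : TS.Inp → ℕ → ℕ → ℕ) : CP := .set 2 2 (fn2 f) ![0, 1]

theorem pureP_ok {f : TS.Inp → ℕ → ℕ → ℕ} (hf : TS.LF (fun x a => f x (a 0) (a 1) : TS.Fn 2)) :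
    (pureP f).Ok := hf

variable {E : Env} {V : Orc} {l q : ℕ} {t : Tp} {C : Ctx}

theorem den_pureP (f : TS.Inp → ℕ → ℕ → ℕ) :
    (den E V (pureP f) ⟨start l q, t⟩).tp = t ∧
      (den E V (pureP f) ⟨start l q, t⟩).reg 2 = min (f (inp E V t) l q) E.B := by
  constructor
  · rfl
  · simp only [pureP, den, St.set_reg, Function.update_self, fn2]
    rfl

/-- DATA. -/
def dataP (cs : TS.Inp → ℕ → ℕ → ℕ) : CP := pureP (fData cs)
/-- MAJORITY. -/
noncomputable def majP : CP := pureP fMaj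
/-- PRODUCTS of kind `0`. -/
def pr0P : CP := pureP fPr0
/-- `Z1`. -/
def z1P : CP := pureP fZ1
/-- MAJORITY for the loss, `Zst`, `Zs`. -/
noncomputable def zzP : CP := pureP fZZ
/-- PRODUCTS of kind `2`. -/
def pr2P : CP := pureP fPr2
/-- `H`. -/
def hhP : CP := pureP fHH
/-- `X`. -/
def xP : CP := pureP fX
/-- `Phi`. -/
def phiP : CP := pureP fPhi

theorem dataP_ok {cs : TS.Inp → ℕ → ℕ → ℕ} (hcs : TS.LF (fun x a => cs x (a 0) (a 1) : TS.Fn 2)) :
    (dataP cs).Ok := pureP_ok (LFData hcs)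
theorem majP_ok : majP.Ok := pureP_ok LFMaj
theorem pr0P_ok : pr0P.Ok := pureP_ok LFPr0
theorem z1P_ok : z1P.Ok := pureP_ok LFZ1
theorem zzP_ok : zzP.Ok := pureP_ok LFZZ
theorem pr2P_ok : pr2P.Ok := pureP_ok LFPr2
theorem hhP_ok : hhP.Ok := pureP_ok LFHH
theorem xP_ok : xP.Ok := pureP_ok LFX
theorem phiP_ok : phiP.Ok := pureP_ok LFPhi

/-- Numerical hypotheses of block F3. -/
structure Num3 (C : Ctx) (E : Env) : Prop where
  qpos : 0 < C.p.q
  Thpos : 0 < C.p.Th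
  rkB : 2 ^ C.p.rk ≤ E.B
  bB : C.p.q ^ C.p.b ≤ E.B
  cB : C.p.q ^ C.p.cmax ≤ E.B
  hl : ∀ s < C.p.S, ∀ v < C.p.n, ∀ x < C.p.n,
    -(C.p.Om : ℤ) ≤ Hm C.p.toPar C.S (C.dt s) (C.o s) v x
  hu : ∀ s < C.p.S, ∀ v < C.p.n, ∀ x < C.p.n,
    Hm C.p.toPar C.S (C.dt s) (C.o s) v x ≤ C.p.Om
  xl : ∀ s < C.p.S, ∀ v < C.p.n, ∀ x < C.p.n,
    -(C.p.Om : ℤ) ≤ Xc C.p.toPar C.S (C.dt s) (C.o s) v x

theorem sdok (h : C.EnvOk E) : SDOk (inp E V t) C.p.toPar C.p.Om where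
  n := by rw [h.stat64 (by omega), h.s0]
  q := by rw [h.stat64 (by omega), h.s1]
  b := by rw [h.stat64 (by omega), h.s2]
  r := by rw [h.stat64 (by omega), h.s3]
  rk := by rw [h.stat64 (by omega), h.s4]
  K := by rw [h.stat64 (by omega), h.s5]
  Th1 := by rw [h.stat64 (by omega), h.s6]
  JF := by rw [h.stat64 (by omega), h.s8]
  JN := by rw [h.stat64 (by omega), h.s9]
  Th := by rw [h.stat64 (by omega), h.s10]
  Om := by rw [h.stat64 (by omega), h.s18]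
  m := by rw [h.stat64 (by omega), h.s19]; rfl

theorem wok (h : C.EnvOk E) {s : ℕ} (hs : s < C.p.S) :
    WOk (inp E V t) C.p C.w (C.o s) s where
  D := by rw [h.stat64 (by omega), h.s7]
  Q := by rw [h.stat64 (by omega), h.s14]
  off := fun i hi => by
    rw [h.stat (by unfold stOff stW; omega), h.off s hs i hi]
  g := fun i hi => by
    have e : 64 + 6 * C.p.S + (2 * C.p.DC + 2 * C.p.lw + i) =
        stW C.p.S + (2 * C.p.DC + 2 * C.p.lw + i) := rfl
    have h1 : 2 * C.p.DC + 2 * C.p.lw + i < C.p.nw := by unfold Par2.nw; omega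
    unfold fg
    rw [h.stat64 (by omega : 20 < 64), h.s20, h.stat64 (by omega : 15 < 64), h.s15,
      h.stat64 (by omega : 17 < 64), h.s17, e, h.stat (by omega), h.seed _ h1]
    rfl

theorem stat17 (h : C.EnvOk E) : stat (inp E V t) 17 = C.p.lw := by
  rw [h.stat64 (by omega), h.s17]

theorem lvl_le {s ph : ℕ} (hs : s < C.p.S) (hph : ph < C.p.m) :
    s * C.p.m + ph ≤ C.p.S * C.p.m := by
  calc s * C.p.m + ph ≤ s * C.p.m + C.p.m := by omega
    _ = (s + 1) * C.p.m := by ring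
    _ ≤ C.p.S * C.p.m := Nat.mul_le_mul_right _ hs

/-- The goal for pure programs. -/
theorem pure_goal (h : C.Hyp E) {f : TS.Inp → ℕ → ℕ → ℕ} {s ph : ℕ} (hs : s < C.p.S)
    (hph : ph < C.p.m)
    (hf : ∀ (V : Orc) (t : Tp), TpOk C.p t →
      AnsI (inp E V t) C.p C.S C.T C.w (C.dt s) (C.o s)
        (s * nph) ph t → ∀ q, vq C.p (C.dt s) ph q →
      f (inp E V t) (s * nph + ph) q =
        phVal C.p C.S C.T C.w (C.dt s) (C.o s) ph q t) :
    C.PGoal E (pureP f) (s * C.p.m + ph) := by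
  intro V hV q _ t ht
  have h1 := den_pureP (E := E) (V := V) (t := t) (l := s * C.p.m + ph) (q := q) f
  refine ⟨h1.1, fun hv => ?_⟩
  have h2 := hf V t ht (fun ph' hph' q' hq' => Ctx.Right.ask_stage h hs hph hV hph' hq' ht) q
    ((C.vl_eq hph).1 hv)
  rw [h1.2, C.pv_eq hph]
  have h3 : f (inp E V t) (s * C.p.m + ph) q =
      phVal C.p C.S C.T C.w (C.dt s) (C.o s) ph q t := h2
  rw [h3]
  refine min_eq_left ?_
  rw [← C.pv_eq hph]
  exact h.vB _ (lvl_le hs hph) q hv t ht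

/-- **Kind 4**: MAJORITY of kind `0`. -/
theorem maj0_goal (h : C.Hyp E) {s : ℕ} (hs : s < C.p.S) :
    C.PGoal E majP (s * C.p.m + phP0) := by
  refine pure_goal h hs (by unfold phP0 Par2.m nph; omega) (fun V t ht hA q hq => ?_)
  have hv := (vq_P0 ..).1 hq
  exact maj0_val (stat17 h.toEnvOk) hA hq (h.mj0 s hs _ hv.1 _ hv.2.1 _ hv.2.2 t ht)

/-- **Kind 13**: MAJORITY of kind `2`. -/
theorem maj2_goal (h : C.Hyp E) {s : ℕ} (hs : s < C.p.S) :
    C.PGoal E majP (s * C.p.m + phP2) := by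
  refine pure_goal h hs (by unfold phP2 Par2.m nph; omega) (fun V t ht hA q hq => ?_)
  have hv := (vq_P2 ..).1 hq
  exact maj2_val (stat17 h.toEnvOk) hA hq (h.mj2 s hs _ hv.1 _ hv.2.1 _ hv.2.2 t ht)

/-- **Kind 5**: PRODUCT of kind `0`. -/
theorem pr0_goal (h : C.Hyp E) (_hn : Num3 C E) {s : ℕ} (hs : s < C.p.S) :
    C.PGoal E pr0P (s * C.p.m + phPr0) :=
  pure_goal h hs (show _ < 18 by decide)
    (fun _ _ _ hA _ hq => pr0_val (sdok h.toEnvOk) (wok h.toEnvOk hs)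
      (by rw [bnd_inp]; exact h.wB) hA hq (h.h0 s hs))

/-- **Kind 14**: PRODUCT of kind `2`. -/
theorem pr2_goal (h : C.Hyp E) (hn : Num3 C E) {s : ℕ} (hs : s < C.p.S) :
    C.PGoal E pr2P (s * C.p.m + phPr2) :=
  pure_goal h hs (show _ < 18 by decide)
    (fun _ _ _ hA _ hq => pr2_val (sdok h.toEnvOk) (by rw [bnd_inp]; exact hn.rkB)
      (wok h.toEnvOk hs) (by rw [bnd_inp]; exact h.wB) hA hq (h.h2 s hs))

theorem pow_cB (h : C.Hyp E) (hn : Num3 C E) {s : ℕ} (hs : s < C.p.S) :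
    ∀ v < C.p.n, C.p.q ^ (C.dt s).c v ≤ E.B := fun v hv =>
  (Nat.pow_le_pow_right hn.qpos ((h.dtOk s hs.le).cm v hv)).trans hn.cB

/-- **Kind 6**: `Z1`. -/
theorem z1_goal (h : C.Hyp E) (hn : Num3 C E) {s : ℕ} (hs : s < C.p.S) :
    C.PGoal E z1P (s * C.p.m + phZ1) :=
  pure_goal h hs (by unfold phZ1 Par2.m nph; omega)
    (fun _ _ _ hA _ hq => z1_val (sdok h.toEnvOk) hA
      (fun v hv => by rw [bnd_inp]; exact pow_cB h hn hs v hv) hn.qpos hq)

/-- **Kind 10**: `Zst`, `Zs`. -/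
theorem zz_goal (h : C.Hyp E) {s : ℕ} (hs : s < C.p.S) :
    C.PGoal E zzP (s * C.p.m + phZZ) := by
  refine pure_goal h hs (by unfold phZZ Par2.m nph; omega) (fun V t ht hA q hq => ?_)
  have hv := (vq_ZZ ..).1 hq
  exact zz_val (sdok h.toEnvOk) (stat17 h.toEnvOk) hA hq (h.mjL s hs _ hv t ht)

/-- **Kind 15**: `H`. -/
theorem hh_goal (h : C.Hyp E) (hn : Num3 C E) {s : ℕ} (hs : s < C.p.S) :
    C.PGoal E hhP (s * C.p.m + phH) :=
  pure_goal h hs (show _ < 18 by decide)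
    (fun _ _ _ hA _ hq => h_val (sdok h.toEnvOk) (by rw [bnd_inp]; exact hn.rkB) hn.Thpos hA hq
      (hn.hu s hs))

/-- **Kind 16**: `X`. -/
theorem x_goal (h : C.Hyp E) (hn : Num3 C E) {s : ℕ} (hs : s < C.p.S) :
    C.PGoal E xP (s * C.p.m + phX) :=
  pure_goal h hs (show _ < 18 by decide)
    (fun _ _ _ hA _ hq => x_val (sdok h.toEnvOk) (wok h.toEnvOk hs)
      (by rw [bnd_inp]; exact h.wXB) hA hq (hn.hl s hs) (h.hX s hs))

/-- **Kind 17**: `Phi`. -/
theorem phi_goal (h : C.Hyp E) (hn : Num3 C E) {s : ℕ} (hs : s < C.p.S) :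
    C.PGoal E phiP (s * C.p.m + phPhi) :=
  pure_goal h hs (show _ < 18 by decide)
    (fun _ _ _ hA _ hq => phi_val (sdok h.toEnvOk) (by rw [bnd_inp]; exact hn.rkB) hn.Thpos hA hq
      (hn.xl s hs))

/-- **Kind 0**: DATA, also for the last level `S * m`. -/
theorem data_goal (h : C.Hyp E) (hn : Num3 C E) {cs : TS.Inp → ℕ → ℕ → ℕ}
    (hcs : ∀ (V : Orc) (t : Tp) (v : ℕ), v + 1 < C.p.n →
      cs (inp E V t) v 0 = C.cs v false ∧ cs (inp E V t) v 1 = C.cs v true)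
    {s : ℕ} (hs : s ≤ C.p.S) : C.PGoal E (dataP cs) (s * C.p.m + phData) := by
  have hm : phData < C.p.m := by unfold phData Par2.m nph; omega
  have hle : s * C.p.m + phData ≤ C.p.S * C.p.m := by
    have := Nat.mul_le_mul_right C.p.m hs
    unfold phData
    omega
  intro V hV q _ t ht
  have h1 := den_pureP (E := E) (V := V) (t := t) (l := s * C.p.m + phData) (q := q) (fData cs)
  refine ⟨h1.1, fun hv => ?_⟩
  have hv' := (C.vl_eq hm).1 hv
  have h3 : fData cs (inp E V t) (s * C.p.m + phData) q =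
      phVal C.p C.S C.T C.w (C.dt s) (C.o s) phData q t := by
    cases s with
    | zero =>
      have e : 0 * C.p.m + phData = 0 := by unfold phData; omega
      rw [e]
      exact data0_val (sdok h.toEnvOk) (by rw [bnd_inp]; exact hn.bB) (hcs V t) hv'
    | succ s =>
      have hA : AnsI (inp E V t) C.p C.S C.T C.w (C.dt s) (C.o s)
          (s * nph) (nph) t :=
        fun ph' hph' q' hq' => Ctx.Right.ask_prev h hle hV hph' hq' ht
      exact dataS_val (sdok h.toEnvOk) (by rw [bnd_inp]; exact hn.bB) hA hv'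
  show (den E V (pureP (fData cs)) ⟨start (s * C.p.m + phData) q, t⟩).reg 2 = _
  rw [h1.2, C.pv_eq hm, h3]
  refine min_eq_left ?_
  rw [← C.pv_eq hm]
  exact h.vB _ hle q hv t ht

end Vale.Agent.P313.NW.TS.F3
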