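import Vale.Agent.P313.NW.H285.Fn
import Vale.Agent.P313.NW.BP.PhVal

/-!
The phases of `Fn.lean` compute the canonical values, if the lower levels do.
-/

namespace Vale.Agent.P313.TS.F3W

open Finset TS Vale.Agent.P313.NW.BP
open Vale.Agent.P313.CT (ask stat bnd)

/-- The static digits `0, ..., 10` and `18, 19` have their values. -/
structure SDOk (I : Inp) (p : Par) (Om : ℕ) : Prop where
  n : stat I 0 = p.n
  q : stat I 1 = p.q
  b : stat I 2 = p.b
  r : stat I 3 = p.r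
  rk : stat I 4 = p.rk
  K : stat I 5 = p.K
  Th1 : stat I 6 = p.Th1
  JF : stat I 8 = p.JF
  JN : stat I 9 = p.JN
  Th : stat I 10 = p.Th
  Om : stat I 18 = Om
  m : stat I 19 = nph

variable {I : Inp} {p : Par} {Om : ℕ} {S : Sem} {d : SD} {o : ℕ → ℕ}

theorem pw_eq {u e : ℕ} (h : u ^ e ≤ bnd I) : pw I u e = u ^ e := by
  unfold pw; omega

theorem SDOk.mod (h : SDOk I p Om) (s ph : ℕ) (hp : ph < nph) :
    (s * nph + ph) % stat I 19 = ph := by
  rw [h.m, Nat.add_comm, Nat.add_mul_mod_self_right, Nat.mod_eq_of_lt hp]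

theorem SDOk.bs (h : SDOk I p Om) (s ph : ℕ) (hp : ph < nph) :
    bs I (s * nph + ph) = s * nph := by
  unfold F3W.bs
  rw [h.mod s ph hp]
  omega

/-! ### MAJORITY -/

theorem fMaj_eq {I : Inp} {L q lw : ℕ} {g : ℕ → ℕ} (hlw : stat I 17 = lw)
    (h : ∀ j ≤ lw, ask I L (Nat.pair j q) = g j) : fMaj I (L + 1) q = NW.BP.maj lw g := by
  classical
  have hc : ∀ v, ∑ j ∈ range (lw + 1), (if ask I L (Nat.pair j q) = v then 1 else 0) =
      #{j ∈ range (lw + 1) | g j = v} := fun v => by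
    rw [Finset.card_filter]
    refine Finset.sum_congr rfl fun j hj => ?_
    rw [mem_range] at hj
    rw [h j (by omega)]
  have hidx : fMajI I (L + 1) q = leastBelow
      (fun i => lw + 1 < 2 * #{j ∈ range (lw + 1) | g j = ask I L (Nat.pair i q)}) (lw + 1) := by
    unfold fMajI majI
    rw [Nat.add_sub_cancel, hlw]
    simp only [hc]
  unfold fMaj NW.BP.maj
  rw [hidx, hlw, Nat.add_sub_cancel]
  split_ifs with h1 h2 h2
  · -- both exist
    have h3 := Nat.find_spec h2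
    have h4 : leastBelow (fun i => lw + 1 <
        2 * #{j ∈ range (lw + 1) | g j = ask I L (Nat.pair i q)}) (lw + 1) = Nat.find h2 := by
      refine leastBelow_eq (by omega) ?_ fun _ => ?_
      · intro i hi hi2
        have hi3 : i ≤ lw := by omega
        refine Nat.find_min h2 hi ⟨hi3, ?_⟩
        rw [h i hi3] at hi2
        exact hi2
      · rw [h _ h3.1]
        exact h3.2
    rw [h4, h _ h3.1]
  · exfalso
    apply h2
    have h4 : leastBelow (fun i => lw + 1 <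
        2 * #{j ∈ range (lw + 1) | g j = ask I L (Nat.pair i q)}) (lw + 1) ≠ lw + 1 := by omega
    by_contra h5
    apply h4
    refine leastBelow_eq le_rfl ?_ fun h6 => absurd h6 (lt_irrefl _)
    intro i hi hi2
    apply h5
    refine ⟨i, by omega, ?_⟩
    rw [h i (by omega)] at hi2
    exact hi2
  · exfalso
    have h3 := Nat.find_spec h2
    apply h1
    have h4 : leastBelow (fun i => lw + 1 <
        2 * #{j ∈ range (lw + 1) | g j = ask I L (Nat.pair i q)}) (lw + 1) = Nat.find h2 := by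
      refine leastBelow_eq (by omega) ?_ fun _ => ?_
      · intro i hi hi2
        have hi3 : i ≤ lw := by omega
        refine Nat.find_min h2 hi ⟨hi3, ?_⟩
        rw [h i hi3] at hi2
        exact hi2
      · rw [h _ h3.1]
        exact h3.2
    rw [h4]
    omega
  · rfl

/-! ### Walks -/

/-- Static digits used by the walks of the stage `s`. -/
structure WOk (I : Inp) (p : Par2) (w o : ℕ → ℕ) (s : ℕ) : Prop where
  D : stat I 7 = p.D
  Q : stat I 14 = p.Q
  off : ∀ i < 6, stat I (stOff s i) = o i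
  g : ∀ i < 2 * p.JH, fg I i = NW.BP.hsh p w i

theorem WOk.fo {p : Par2} {w : ℕ → ℕ} {s : ℕ} (h : WOk I p w o s) {i ph : ℕ} (hi : i < 6)
    (hph : ph < nph) : fo I (s * nph + ph) i = o i := by
  rw [← h.off i hi]
  unfold F3W.fo stOff
  have : (s * nph + ph) / 18 = s := by
    unfold nph at *
    omega
  rw [this]

theorem est_eq {p : Par2} {w : ℕ → ℕ} {s : ℕ} (h : WOk I p w o s) (hTh : stat I 10 = p.Th)
    {N RT R Rp J m v x i0 ph : ℕ} {M M' : ℕ → ℕ → ℕ → ℕ} (hi : i0 < 6) (hph : ph < nph)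
    (hJ : J ≤ p.JH) (hm : m = 2 ^ J) (hR : Rp = R ^ 2 ^ J) (hRT : RT = R * p.Th)
    (hM : ∀ i < 2 ^ J, ∀ v < N, ∀ x < N, M i v x = M' i v x) :
    fUp I (fo I (s * nph + ph) i0) (Rp * cntR (stat I 14) N RT (fg I) J M v x m) =
      estW p w (o i0) N R J M' v x := by
  rw [cntR_eq hm (fun i hi => h.g i (by omega)) hM, h.fo hi hph, h.Q, hRT, hR]
  unfold fUp estW upN
  rw [h.D, h.Q, hTh]

/-! ### PRODUCTS -/

theorem fFac0_eq (h : SDOk I p Om) {s i v x : ℕ}
    (hP : i < p.r → ask I (s * nph + phP0) (Nat.pair i (Nat.pair v x)) = P0 p S d o i v x) :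
    fFac0 I (s * nph + phPr0) i v x = fac0 p S d o i v x := by
  unfold fFac0 fac0
  rw [h.Th, h.r]
  congr 1
  split_ifs with hi
  · exact hP hi
  · rfl

theorem fKp_eq (h : SDOk I p Om) (h2 : 2 ^ p.rk ≤ bnd I) (i : ℕ) : fKp I i = kp p i := by
  unfold fKp
  rw [h.Th, h.rk, pw_eq h2]
  induction i with
  | zero => rfl
  | succ i ih => rw [Function.iterate_succ_apply', ih]; rfl

theorem fFac2_eq (h : SDOk I p Om) (h2 : 2 ^ p.rk ≤ bnd I) {s i v x : ℕ}
    (hP : i < p.r → ask I (s * nph + phP2) (Nat.pair i (Nat.pair v x)) = P2 p S d o i v x) :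
    fFac2 I (s * nph + phPr2) i v x = fac2 p S d o i v x := by
  unfold fFac2 fac2
  rw [h.Th, h.r, fKp_eq h h2]
  congr 1
  split_ifs with hi
  · have e : s * nph + phPr2 - 1 = s * nph + phP2 := rfl
    rw [e, hP hi]
  · rfl

theorem two_pow_le_four {J B : ℕ} (h : 4 ^ 2 ^ J ≤ B) : 2 ^ J ≤ B :=
  ((Nat.lt_pow_self (by norm_num : 1 < 4)).le).trans h

theorem fPr0_eq {p : Par2} {w : ℕ → ℕ} (h : SDOk I p.toPar Om) {s v x : ℕ}
    (hW : WOk I p w o s) (hB : 4 ^ 2 ^ p.JF ≤ bnd I)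
    (hP : ∀ i < p.r, ∀ v < p.n, ∀ x < p.n,
      ask I (s * nph + phP0) (Nat.pair i (Nat.pair v x)) = P0 p.toPar S d o i v x) :
    fPr0 I (s * nph + phPr0) (Nat.pair v x) =
      estW p w (o 1) p.n 4 p.JF (st0 p.toPar S d o) v x := by
  have e2 : pw I 2 (stat I 8) = 2 ^ p.JF := by rw [h.JF]; exact pw_eq (two_pow_le_four hB)
  unfold fPr0
  rw [u1_pair, u2_pair]
  rw [show stat I 8 = p.JF from h.JF] at e2 ⊢
  rw [e2, pw_eq hB, h.n]
  refine est_eq hW h.Th (by norm_num) (by decide) (le_max_left _ _) rfl rfl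
    (by rw [h.Th]) (fun i _ v hv x hx => ?_)
  unfold fSt0 st0
  rw [h.JF, e2]
  exact fFac0_eq h (fun hi => hP _ hi v hv x hx)

theorem fPr2_eq {p : Par2} {w : ℕ → ℕ} (h : SDOk I p.toPar Om) (h2 : 2 ^ p.rk ≤ bnd I)
    {s v x : ℕ} (hW : WOk I p w o s) (hB : 4 ^ 2 ^ p.JF ≤ bnd I)
    (hP : ∀ i < p.r, ∀ v < p.n, ∀ x < p.n,
      ask I (s * nph + phP2) (Nat.pair i (Nat.pair v x)) = P2 p.toPar S d o i v x) :
    fPr2 I (s * nph + phPr2) (Nat.pair v x) =
      estW p w (o 4) p.n 4 p.JF (st2 p.toPar S d o) v x := by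
  have e2 : pw I 2 (stat I 8) = 2 ^ p.JF := by rw [h.JF]; exact pw_eq (two_pow_le_four hB)
  unfold fPr2
  rw [u1_pair, u2_pair]
  rw [show stat I 8 = p.JF from h.JF] at e2 ⊢
  rw [e2, pw_eq hB, h.n]
  refine est_eq hW h.Th (by norm_num) (by decide) (le_max_left _ _) rfl rfl
    (by rw [h.Th]) (fun i _ v hv x hx => ?_)
  unfold fSt2 st2
  rw [h.JF, e2]
  exact fFac2_eq h h2 (fun hi => hP _ hi v hv x hx)

/-! ### Data of the stage, asked by the later phases -/

/-- The data level of the stage answers correctly. -/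
structure DOk (I : Inp) (p : Par) (d : SD) (L : ℕ) : Prop where
  A : ∀ v < p.n, ∀ x < p.n, ask I L (Nat.pair 0 (Nat.pair v x)) = d.A v x
  c : ∀ v < p.n, ask I L (Nat.pair 1 (Nat.pair v 0)) = d.c v
  k : ∀ v < p.n, ask I L (Nat.pair 2 (Nat.pair v 0)) = d.k v

/-! ### Z1 -/

open Classical in
theorem fZ1_eq (h : SDOk I p Om) {s x : ℕ} (hx : x < p.n)
    (hD : DOk I p d (s * nph)) (hc : ∀ v < p.n, p.q ^ d.c v ≤ bnd I) (hq : 0 < p.q)
    (hP : ∀ v < p.n, ask I (s * nph + phPr0) (Nat.pair v x) = G0 p S d o v x) :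
    fZ1 I (s * nph + phZ1) x = if Z1 p S d o x then 1 else 0 := by
  have hb : bs I (s * nph + phZ1) = s * nph :=
    h.bs s _ (by unfold phZ1 nph; omega)
  have hl : s * nph + phZ1 - 1 = s * nph + phPr0 := by
    unfold phZ1 phPr0; omega
  have hH : ∀ v < p.n, fH I (s * nph + phZ1) v = p.q ^ (d.c v - p.b) := by
    intro v hv
    unfold fH
    rw [hb, hD.c v hv, h.q, h.b]
    exact pw_eq ((Nat.pow_le_pow_right hq (Nat.sub_le _ _)).trans (hc v hv))
  have e1 : ∑ v ∈ range (stat I 0), fH I (s * nph + phZ1) v *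
      ask I (bs I (s * nph + phZ1)) (Nat.pair 0 (Nat.pair v x)) = tot p d x := by
    rw [h.n, hb, tot]
    refine Finset.sum_congr rfl fun v hv => ?_
    rw [mem_range] at hv
    rw [hH v hv, hD.A v hv x hx]
  have e2 : ∑ v ∈ range (stat I 0), fH I (s * nph + phZ1) v *
      ask I (s * nph + phZ1 - 1) (Nat.pair v x) = Ft p S d o x := by
    rw [h.n, hl, Ft]
    refine Finset.sum_congr rfl fun v hv => ?_
    rw [mem_range] at hv
    rw [hH v hv, hP v hv]
  unfold fZ1
  rw [e1, e2, hH x hx, hb, hD.c x hx, h.q, h.Th, pw_eq (hc x hx), ← pow_add, ← pow_add]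
  exact if_congr Iff.rfl rfl rfl

/-! ### ZZ -/

open Classical in
theorem fZZ_eq (h : SDOk I p Om) {s x : ℕ} (hx : x < p.n)
    (hD : DOk I p d (s * nph))
    (hZ : ask I (s * nph + phZ1) x = if Z1 p S d o x then 1 else 0)
    (hM : fMaj I (s * nph + phZZ) x = lossR p S d o x) :
    fZZ I (s * nph + phZZ) x =
      (if Zst p S d o x then 1 else 0) + 2 * (if Zs p S d o x then 1 else 0) := by
  have hb : bs I (s * nph + phZZ) = s * nph :=
    h.bs s _ (by unfold phZZ nph; omega)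
  unfold fZZ
  rw [hb, hM, h.Th, h.q, h.K, hD.k x hx]
  have e1 : ask I (s * nph + 6) x = if Z1 p S d o x then 1 else 0 := hZ
  rw [e1]
  have e2 : ((if Z1 p S d o x then 1 else 0) = 1 ∨ 2 * p.Th ≤ lossR p S d o x * p.q ^ 7) ↔
      Zst p S d o x := by
    unfold Zst
    by_cases h1 : Z1 p S d o x <;> simp [h1]
  by_cases hz : Zst p S d o x
  · have hs : Zs p S d o x := Or.inl hz
    rw [if_pos (e2.2 hz), if_pos hz, if_pos hs]
  · rw [if_neg (fun h1 => hz (e2.1 h1)), if_neg hz]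
    by_cases hk : p.K ≤ d.k x
    · have hs : Zs p S d o x := Or.inr hk
      rw [if_pos hk, if_pos hs]
    · have hs : ¬ Zs p S d o x := fun h1 => h1.elim hz hk
      rw [if_neg hk, if_neg hs]

/-- The ZZ level answers correctly. -/
def ZOk (I : Inp) (p : Par) (S : Sem) (d : SD) (o : ℕ → ℕ) (L : ℕ) : Prop :=
  ∀ x < p.n, (2 ≤ ask I L x ↔ Zs p S d o x) ∧ (ask I L x % 2 = 1 ↔ Zst p S d o x)

open Classical in
theorem ZOk.of (L : ℕ) (h : ∀ x < p.n, ask I L x =
    (if Zst p S d o x then 1 else 0) + 2 * (if Zs p S d o x then 1 else 0)) :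
    ZOk I p S d o L := by
  intro x hx
  rw [h x hx]
  by_cases h1 : Zst p S d o x <;> by_cases h2 : Zs p S d o x <;> simp [h1, h2]

end Vale.Agent.P313.TS.F3W
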