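import Vale.Agent.P313.NW.H285.Spec

/-!
The phases H, G, Phi and DATA compute the canonical values.
-/

namespace Vale.Agent.P313.TS.F3W

open Finset TS Vale.Agent.P313.NW.BP
open Vale.Agent.P313.CT (ask stat bnd)

variable {I : Inp} {p : Par} {Om : ℕ} {S : Sem} {d : SD} {o : ℕ → ℕ}

/-! ### Integer arithmetic with offsets -/

/-- `(X + c Th - Y) / Th` in `ℕ` codes the rounded quotient of `X - Y`. -/
theorem div_off (X Y c Th : ℕ) (hTh : 0 < Th) :
    (X + c * Th - Y) / Th = (((X : ℤ) - Y) / (Th : ℤ) + c).toNat := by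
  have h1 : ((X : ℤ) - Y) / (Th : ℤ) + c = ((X : ℤ) - Y + c * Th) / (Th : ℤ) := by
    rw [Int.add_mul_ediv_right _ _ (by positivity)]
  rw [h1]
  rcases le_total Y (X + c * Th) with h | h
  · have h2 : ((X : ℤ) - Y + c * Th) = ((X + c * Th - Y : ℕ) : ℤ) := by
      rw [Nat.cast_sub h]; push_cast; ring
    rw [h2, ← Int.natCast_ediv, Int.toNat_natCast]
  · rw [Nat.sub_eq_zero_of_le h, Nat.zero_div]
    symm
    rw [Int.toNat_eq_zero]
    have h3 : ((X : ℤ) - Y + c * Th) ≤ 0 := by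
      have : ((X + c * Th : ℕ) : ℤ) ≤ Y := by exact_mod_cast h
      push_cast at this
      linarith
    have hT : (0 : ℤ) < Th := by exact_mod_cast hTh
    have h4 := Int.ediv_mul_le ((X : ℤ) - Y + c * Th) hT.ne'
    by_contra h5
    rw [not_le] at h5
    nlinarith

/-- `Lm` is the difference of the two parts. -/
theorem Lm_eq (h : SDOk I p Om) (h2 : 2 ^ p.rk ≤ bnd I) {L s ph v x : ℕ}
    (hL : L = s * nph + ph) (hph : ph < nph)
    (hD : DOk I p d (s * nph))
    (hZ : ZOk I p S d o (s * nph + phZZ)) (hv : v < p.n) (hx : x < p.n) :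
    Lm p S d o v x = (fLp I v x : ℤ) - (fLn I L v x : ℤ) := by
  have hb : bs I L = s * nph := by rw [hL]; exact h.bs s _ hph
  unfold Lm fLp fLn isZs
  rw [hb, h.Th, h.rk, h.Th1, pw_eq h2, hD.A v hv x hx]
  have e : (2 ≤ ask I (s * nph + 10) x) ↔ Zs p S d o x := (hZ x hx).1
  have h3 : ((2 ^ p.rk - 1 : ℕ) : ℤ) = (2 : ℤ) ^ p.rk - 1 := by
    have : 1 ≤ 2 ^ p.rk := Nat.one_le_two_pow
    push_cast [this]
    ring
  by_cases hz : Zs p S d o x
  · rw [if_pos hz, if_pos (e.2 hz)]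
    split_ifs <;> simp
  · rw [if_neg hz, if_neg (fun h1 => hz (e.1 h1))]
    rw [Nat.cast_mul, Nat.cast_mul, h3]
    split_ifs <;> simp

/-! ### H -/

theorem fHH_eq (h : SDOk I p Om) (h2 : 2 ^ p.rk ≤ bnd I) (hTh : 0 < p.Th) {s v y : ℕ}
    (hy : y < p.n)
    (hD : DOk I p d (s * nph))
    (hZ : ZOk I p S d o (s * nph + phZZ))
    (hG : ∀ u < p.n, ask I (s * nph + phPr2) (Nat.pair v u) = G2 p S d o v u)
    (hHb : Hm p S d o v y ≤ Om) :
    fHH I (s * nph + phH) (Nat.pair v y) = (Hm p S d o v y + Om).toNat := by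
  have e : s * nph + phH - 1 = s * nph + phPr2 := rfl
  have hph : phH < nph := by decide
  unfold fHH fHn
  simp only [u1_pair, u2_pair]
  rw [e, h.n, h.Th, h.Om]
  set L := s * nph + phH with hLdef
  set X := ∑ u ∈ range p.n, ask I (s * nph + phPr2) (Nat.pair v u) * fLp I u y with hX
  set Y := ∑ u ∈ range p.n, ask I (s * nph + phPr2) (Nat.pair v u) * fLn I L u y with hY
  have hXY : (X : ℤ) - Y = ∑ u ∈ range p.n, (G2 p S d o v u : ℤ) * Lm p S d o u y := by
    rw [hX, hY]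
    push_cast
    rw [← Finset.sum_sub_distrib]
    refine Finset.sum_congr rfl fun u hu => ?_
    rw [mem_range] at hu
    rw [Lm_eq h h2 hLdef hph hD hZ hu hy, hG u hu]
    ring
  rw [div_off X Y Om p.Th hTh, hXY]
  unfold Hm Hn at hHb ⊢
  set T := (∑ u ∈ range p.n, (G2 p S d o v u : ℤ) * Lm p S d o u y) / (p.Th : ℤ) with hT
  have h4 : 0 ≤ T + Om := by
    have : (0 : ℤ) ≤ if v = y then 2 * (p.Th : ℤ) else 0 := by split_ifs <;> positivity
    linarith
  have h5 : ((T + Om).toNat : ℤ) = T + Om := Int.toNat_of_nonneg h4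
  have h6 : ((if v = y then 2 * p.Th else 0 : ℕ) : ℤ) = if v = y then 2 * (p.Th : ℤ) else 0 := by
    split_ifs <;> simp
  rw [← h6]
  omega

/-! ### X -/

theorem fXst_eq (h : SDOk I p Om) {s i w w' : ℕ} (hw : w < 4 * p.n) (hw' : w' < 4 * p.n)
    (hG : ∀ v < p.n, ∀ x < p.n,
      ask I (s * nph + phPr2) (Nat.pair v x) = G2 p S d o v x)
    (hH : ∀ v < p.n, ∀ y < p.n, ask I (s * nph + phH) (Nat.pair v y) =
      (Hm p S d o v y + Om).toNat)
    (hHb : ∀ v < p.n, ∀ y < p.n, -(Om : ℤ) ≤ Hm p S d o v y) :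
    fXst I (s * nph + phX) i w w' = Xst p S d o w w' := by
  have e1 : s * nph + phX - 1 = s * nph + phH := rfl
  have e2 : s * nph + phX - 2 = s * nph + phPr2 := rfl
  have hv : w / 4 < p.n := by omega
  have hv' : w' / 4 < p.n := by omega
  unfold fXst Xst Em
  rw [e1, e2, hG _ hv _ hv', hH _ hv _ hv', h.Th, h.Om]
  have h1 := hHb _ hv _ hv'
  have h3 : ((Hm p S d o (w / 4) (w' / 4) + Om).toNat : ℤ) = Hm p S d o (w / 4) (w' / 4) + Om :=
    Int.toNat_of_nonneg (by linarith)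
  split_ifs <;> omega

theorem fXp_eq {p : Par2} {w : ℕ → ℕ} (h : SDOk I p.toPar Om) {s v x σ : ℕ}
    (hW : WOk I p w o s) (hB : p.RX ^ 2 ^ p.JN ≤ bnd I)
    (hG : ∀ v < p.n, ∀ x < p.n,
      ask I (s * nph + phPr2) (Nat.pair v x) = G2 p.toPar S d o v x)
    (hH : ∀ v < p.n, ∀ y < p.n, ask I (s * nph + phH) (Nat.pair v y) =
      (Hm p.toPar S d o v y + Om).toNat)
    (hHb : ∀ v < p.n, ∀ y < p.n, -(Om : ℤ) ≤ Hm p.toPar S d o v y) :
    fXp I (s * nph + phX) v x σ =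
      estW p w (o 5) (4 * p.n) p.RX p.JN (fun _ => Xst p.toPar S d o) (4 * v)
        (4 * x + 2 + σ) := by
  have hR : (2 : ℕ) ^ ((p.r + 4) * 2 ^ p.JN) = p.RX ^ 2 ^ p.JN := by
    unfold Par2.RX
    rw [← pow_mul]
  have hN0 : 0 < 2 ^ p.JN := by positivity
  have hB' : (2 : ℕ) ^ ((p.r + 4) * 2 ^ p.JN) ≤ bnd I := by rw [hR]; exact hB
  have hJ : 2 ^ p.JN ≤ bnd I := by
    refine le_trans ?_ hB'
    refine ((Nat.lt_pow_self (by norm_num : 1 < 2)).le).trans
      (Nat.pow_le_pow_right (by norm_num) ?_)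
    nlinarith
  have hr : (2 : ℕ) ^ (p.r + 4) ≤ bnd I := by
    refine le_trans (Nat.pow_le_pow_right (by norm_num) ?_) hB'
    nlinarith
  have e2 : pw I 2 (stat I 9) = 2 ^ p.JN := by rw [h.JN]; exact pw_eq hJ
  unfold fXp
  rw [show stat I 9 = p.JN from h.JN] at e2 ⊢
  rw [e2, h.r, pw_eq hB', pw_eq hr, h.n]
  refine est_eq hW h.Th (by norm_num) (by decide) (le_max_right _ _) rfl hR
    (by rw [h.Th]; rfl) (fun i _ v hv x hx => ?_)
  exact fXst_eq h hv hx hG hH hHb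

theorem fX_eq {p : Par2} {w : ℕ → ℕ} (h : SDOk I p.toPar Om) {s v x : ℕ}
    (hW : WOk I p w o s) (hB : p.RX ^ 2 ^ p.JN ≤ bnd I)
    (hG : ∀ v < p.n, ∀ x < p.n,
      ask I (s * nph + phPr2) (Nat.pair v x) = G2 p.toPar S d o v x)
    (hH : ∀ v < p.n, ∀ y < p.n, ask I (s * nph + phH) (Nat.pair v y) =
      (Hm p.toPar S d o v y + Om).toNat)
    (hHb : ∀ v < p.n, ∀ y < p.n, -(Om : ℤ) ≤ Hm p.toPar S d o v y)
    (hX : ∀ σ < 2, estW p w (o 5) (4 * p.n) p.RX p.JN (fun _ => Xst p.toPar S d o) (4 * v)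
        (4 * x + 2 + σ) = Xp p.toPar S d o σ v x) :
    fX I (s * nph + phX) (Nat.pair v x) = (Xc p.toPar S d o v x + Om).toNat := by
  unfold fX Xc
  rw [u1_pair, u2_pair, fXp_eq h hW hB hG hH hHb, fXp_eq h hW hB hG hH hHb, hX 0 (by norm_num),
    hX 1 (by norm_num), h.Om]
  omega

/-! ### Phi -/

theorem fPhi_eq (h : SDOk I p Om) (h2 : 2 ^ p.rk ≤ bnd I) (hTh : 0 < p.Th) {s v x : ℕ}
    (hx : x < p.n)
    (hD : DOk I p d (s * nph))
    (hZ : ZOk I p S d o (s * nph + phZZ))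
    (hG : ∀ y < p.n, ask I (s * nph + phX) (Nat.pair v y) =
      (Xc p S d o v y + Om).toNat)
    (hGb : ∀ y < p.n, -(Om : ℤ) ≤ Xc p S d o v y) :
    fPhi I (s * nph + phPhi) (Nat.pair v x) =
      (Phi p S d o v x - 1).toNat := by
  have e1 : s * nph + phPhi - 1 = s * nph + phX := by
    unfold phX phPhi; omega
  have hb : bs I (s * nph + phPhi) = s * nph :=
    h.bs s _ (by unfold phPhi nph; omega)
  have e : (2 ≤ isZs I (s * nph + phPhi) x) ↔ Zs p S d o x := by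
    unfold isZs
    rw [hb]
    exact (hZ x hx).1
  unfold fPhi fPhi'
  simp only [u1_pair, u2_pair]
  rw [e1, hb, h.n, h.Th, h.Om, h.rk, pw_eq h2]
  set w : ℕ := if 2 ≤ isZs I (s * nph + phPhi) x then 2 ^ p.rk else 1 with hw
  set X := ∑ y ∈ range p.n, ask I (s * nph + phX) (Nat.pair v y) *
    ask I (s * nph) (Nat.pair 0 (Nat.pair y x)) * w with hX
  set Y := ∑ y ∈ range p.n, Om * ask I (s * nph) (Nat.pair 0 (Nat.pair y x)) * w with hY
  have hXY : (X : ℤ) - Y = ∑ y ∈ range p.n, Xc p S d o v y * (d.A y x : ℤ) * w := by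
    rw [hX, hY]
    push_cast
    rw [← Finset.sum_sub_distrib]
    refine Finset.sum_congr rfl fun y hy => ?_
    rw [mem_range] at hy
    have h3 : (ask I (s * nph + phX) (Nat.pair v y) : ℤ) =
        Xc p S d o v y + Om := by
      rw [hG y hy, Int.toNat_of_nonneg (by linarith [hGb y hy])]
    rw [h3, hD.A y hy x hx]
    ring
  have hpos : 0 < p.Th * 2 ^ p.rk := by positivity
  have h5 := div_off X Y 0 (p.Th * 2 ^ p.rk) hpos
  rw [Nat.zero_mul, Nat.add_zero] at h5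
  rw [h5, hXY]
  have h6 : Phi p S d o v x = (∑ y ∈ range p.n, Xc p S d o v y *
      (d.A y x : ℤ) * w) / ((p.Th * 2 ^ p.rk : ℕ) : ℤ) := by
    unfold Phi
    rw [hw]
    push_cast
    by_cases hz : Zs p S d o x
    · simp only [if_pos hz, if_pos (e.2 hz)]
    · simp only [if_neg hz, if_neg (fun h1 => hz (e.1 h1))]
  rw [h6]
  omega

/-! ### DATA -/

theorem fData_zero {cs : Inp → ℕ → ℕ → ℕ} {cs' : ℕ → Bool → ℕ} (h : SDOk I p Om)
    (hq : p.q ^ p.b ≤ bnd I) 
    (hcs : ∀ v, v + 1 < p.n → cs I v 0 = cs' v false ∧ cs I v 1 = cs' v true) (v x : ℕ) :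
    fData cs I 0 (Nat.pair 0 (Nat.pair v x)) = (init p cs').A v x ∧
    fData cs I 0 (Nat.pair 1 (Nat.pair v x)) = (init p cs').c v ∧
    fData cs I 0 (Nat.pair 2 (Nat.pair v x)) = (init p cs').k v := by
  unfold fData
  simp only [u1_pair, u2_pair, fInit, init, h.n, h.q, h.b, h.K, pw_eq hq]
  refine ⟨?_, rfl, rfl⟩
  by_cases hv : v + 1 < p.n
  · simp only [if_pos hv, (hcs v hv).1, (hcs v hv).2, if_true]
  · simp only [if_neg hv, if_true]

theorem fData_succ {cs : Inp → ℕ → ℕ → ℕ} (h : SDOk I p Om)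
    (hq : p.q ^ p.b ≤ bnd I) {s : ℕ} (hD : DOk I p d (s * nph))
    (hZ : ZOk I p S d o (s * nph + phZZ)) {v x : ℕ} (hv : v < p.n)
    (hx : x < p.n)
    (hP : ∀ y < p.n, ask I (s * nph + phPhi) (Nat.pair v y) =
      (Phi p S d o v y - 1).toNat) :
    fData cs I ((s + 1) * nph) (Nat.pair 0 (Nat.pair v x)) =
      (next p S d o).A v x ∧
    fData cs I ((s + 1) * nph) (Nat.pair 1 (Nat.pair v x)) =
      (next p S d o).c v ∧
    fData cs I ((s + 1) * nph) (Nat.pair 2 (Nat.pair v x)) =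
      (next p S d o).k v := by
  have hm : 0 < nph := by unfold nph; omega
  have e0 : (s + 1) * nph = s * nph + nph := by ring
  have hl : (s + 1) * nph ≠ 0 := by positivity
  have e1 : (s + 1) * nph - 1 = s * nph + phPhi := by
    rw [e0]; unfold phPhi nph; omega
  have e2 : (s + 1) * nph - nph = s * nph := by
    rw [e0]; omega
  unfold fData
  simp only [if_neg hl, u1_pair, u2_pair, fNext, e1, h.n, h.q, h.b, h.K, h.m, pw_eq hq, e2]
  have hz1 : (2 ≤ ask I (s * nph + 10) v) ↔ Zs p S d o v := (hZ v hv).1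
  have hz2 : (ask I (s * nph + 10) v % 2 = 1) ↔ Zst p S d o v :=
    (hZ v hv).2
  refine ⟨?_, ?_, ?_⟩
  · simp only [if_true, next]
    split_ifs with h1
    · congr 1
      refine Finset.sum_congr rfl fun y hy => ?_
      rw [mem_range] at hy
      exact hP y (by omega)
    · exact hP x hx
  · simp only [next, hD.c v hv, hD.k v hv]
    simp only [one_ne_zero, if_false, if_true]
    congr 1
    classical
    exact if_congr (by rw [hz2]) rfl rfl
  · simp only [next, hD.k v hv]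
    have : (2 : ℕ) ≠ 0 := by norm_num
    simp only [this, if_false, show (2 : ℕ) ≠ 1 by norm_num]
    congr 1
    classical
    exact if_congr hz1 rfl rfl

end Vale.Agent.P313.TS.F3W
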