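import Vale.Agent.P313.NW.H644.WkDef
import Vale.Agent.P313.NW.BP.Inst
import Vale.Agent.P313.NW.H899.Hop

/-!
The numeric walk of a stage datum and the token system of the datum.
-/

namespace Vale.Agent.P313.NW.H285

open Finset Vale.Agent.P313.NW.CT Vale.Agent.P313.CT Vale.Agent.P313.NW.BP Vale.Agent.P313.NW.H899
  Vale.Agent.P313.H899 Vale.Agent.P313.NW.H644 Vale.Agent.P313.H644

/-- Valid data. -/
structure Dv (p : Par2) (d : SD) : Prop where
  row : ∀ v < p.n, ∑ x ∈ range p.n, d.A v x = p.q ^ p.b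
  cb : ∀ v < p.n, p.b ≤ d.c v
  cm : ∀ v < p.n, d.c v ≤ p.cmax

variable {p : Par2} {d : SD}

theorem Dv.rowF (hd : Dv p d) {v : ℕ} (hv : v < p.n) :
    rowS p.n (FD p.toPar d) v = p.q ^ d.c v := rowS_FD (hd.row v hv) (hd.cb v hv)

theorem L_eq (p : Par2) : p.L = 310 * p.r := rfl

/-- The laws of the walk. -/
theorem wkOk (hd : Dv p d) (hq : 0 < p.q) {E : Env} (hw : E.w = p.q) (hL : E.L = p.L) :
    (wk p d).Ok E p.r := by
  have hcell : ∀ {a : ℕ} (_ : a < p.r) {j : ℕ} (_ : E.L ≤ j), 310 * a + 62 ≤ j := by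
    intro a ha j hj
    rw [hL, L_eq] at hj
    have : 310 * (a + 1) ≤ 310 * p.r := Nat.mul_le_mul_left _ ha
    omega
  have hcell2 : ∀ {a : ℕ} (_ : a < p.r), 310 * (a + 1) ≤ E.L := by
    intro a ha
    rw [hL, L_eq]
    exact Nat.mul_le_mul_left _ ha
  refine
    { hF := fun v hv => hd.rowF hv
      hH := fun v _ => Nat.pow_pos hq
      mix_x := fun a _ y _ => rfl
      unmix_x := fun a _ y _ => rfl
      mix_v := ?_, unmix_v := ?_, mu := ?_, um := ?_ }
  · rintro a ha y ⟨h1, h2, h3, h4⟩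
    refine ⟨h1, MX.mixN_z_lt hq p.cmax p.nd (d.c y.x) a y.x y.z y.tp, fun j hj => ?_,
      fun j hj => ?_⟩
    · rw [hw] at h3 ⊢
      exact MX.mixN_lt hq h3 hj
    · change (MX.mixN p.q p.cmax p.nd (d.c y.x) a y.x y.z y.tp).2 j = 0
      rw [MX.mixN_above (hcell ha hj)]
      exact h4 j hj
  · rintro a ha y ⟨h1, h2, h3, h4⟩
    refine ⟨h1, MX.unmixN_z_lt hq p.cmax p.nd (d.c y.x) a y.x y.z y.tp, fun j hj => ?_,
      fun j hj => ?_⟩
    · rw [hw] at h3 ⊢
      exact MX.unmixN_lt hq h3 hj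
    · change (MX.unmixN p.q p.cmax p.nd (d.c y.x) a y.x y.z y.tp).2 j = 0
      rw [MX.unmixN_above (hcell ha hj)]
      exact h4 j hj
  · rintro a ha ⟨x, z, t⟩ ⟨h1, h2, h3, h4⟩
    have h5 := MX.mix_unmix hq (cm := p.cmax) (nd := p.nd) (c := d.c x) (a := a) (x := x)
      (z := z) (t := t) h2 (fun j hj => by rw [← hw]; exact h3 j (by have := hcell2 ha; omega))
    change Cn.mk x _ _ = _
    rw [Prod.ext_iff] at h5
    congr 1
    · exact h5.1
    · exact h5.2
  · rintro a ha ⟨x, z, t⟩ ⟨h1, h2, h3, h4⟩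
    have h5 := MX.unmix_mix hq (cm := p.cmax) (nd := p.nd) (c := d.c x) (a := a) (x := x)
      (z := z) (t := t) h2 (fun j hj => by rw [← hw]; exact h3 j (by have := hcell2 ha; omega))
    change Cn.mk x _ _ = _
    rw [Prod.ext_iff] at h5
    congr 1
    · exact h5.1
    · exact h5.2

theorem lay_c (hd : Dv p d) {v : ℕ} (hv : v < p.n) : (lay p d).c v = d.c v :=
  min_eq_left (hd.cm v hv)

theorem z_lt (hd : Dv p d) {y : Cn} (hy : VdS p d y) :
    y.z < (lay p d).q ^ (lay p d).c y.x := by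
  rw [lay_c hd hy.1]
  exact hy.2.1

theorem numZ_dec : ∀ (a : ℕ) (w : Fin (lay p d).n) (z : Fin ((lay p d).q ^ (lay p d).c w))
    (t : ℕ → ℕ), (H205.Lay.numZ a ((lay p d).dec a w z t) : ℕ) = z := by
  intro a
  induction a with
  | zero => intros; rfl
  | succ a ih => intro w z t; exact ih w z t

theorem labDig_tlab {a : ℕ} {t : ℕ → ℕ} {j : ℕ} (hj : j < 310) (ht : t (310 * a + j) < p.q) :
    ((lay p d).labDig ((lay p d).tlab a t) j).val = t (310 * a + j) := by
  unfold H205.Lay.tlab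
  rw [H205.Lay.labDig_labOf _ (show j < 10 * (lay p d).t from hj)]
  exact ZMod.val_cast_of_lt ht

variable [hq0 : NeZero p.q]

/-- The token of a content (`x0` if the content is not valid). -/
def dc (p : Par2) (d : SD) [NeZero p.q] (x0 : (lay p d).X0) (a : ℕ) (y : Cn) : TokS p d a :=
  if h : y.x < p.n ∧ y.z < (lay p d).q ^ (lay p d).c y.x then
    BP.dec p d a ⟨y.x, h.1⟩ ⟨y.z, h.2⟩ y.tp
  else BP.dec p d a x0.1 x0.2 y.tp

theorem dc_of {x0 : (lay p d).X0} {a : ℕ} {y : Cn}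
    (h : y.x < p.n ∧ y.z < (lay p d).q ^ (lay p d).c y.x) :
    dc p d x0 a y = BP.dec p d a ⟨y.x, h.1⟩ ⟨y.z, h.2⟩ y.tp := dif_pos h

/-- The content with the token `u` of level `a` and the upper part of the tape of `y`. -/
def enc (p : Par2) (d : SD) [NeZero p.q] (a : ℕ) (u : TokS p d a) (y : Cn) : Cn :=
  ⟨((lay p d).st a u : ℕ), (H205.Lay.numZ a u : ℕ),
    fun j => if j < 310 * a then H205.Lay.tapeOf a u j else y.tp j⟩

theorem enc_vd (hd : Dv p d) {a : ℕ} (ha : a ≤ p.r) (u : TokS p d a) {y : Cn}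
    (hy : TpOk p y.tp) : VdS p d (enc p d a u y) := by
  have h1 : ((lay p d).st a u : ℕ) < p.n := ((lay p d).st a u).2
  refine ⟨h1, ?_, fun j hj => ?_, fun j hj => ?_⟩
  · have h2 : (H205.Lay.numZ a u : ℕ) < p.q ^ (lay p d).c ((lay p d).st a u : ℕ) :=
      (H205.Lay.numZ a u).2
    exact h2.trans_le (le_of_eq (congrArg (p.q ^ ·) (lay_c hd h1)))
  · unfold enc
    simp only
    split_ifs
    · exact H205.Lay.tapeOf_lt a u j
    · exact hy.1 j hj
  · unfold enc
    simp only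
    rw [L_eq] at hj
    have : 310 * a ≤ 310 * p.r := Nat.mul_le_mul_left _ ha
    rw [if_neg (by omega)]
    exact hy.2 j (by rw [L_eq]; omega)

theorem dc_enc {x0 : (lay p d).X0} (a : ℕ) (u : TokS p d a) (y : Cn) :
    dc p d x0 a (enc p d a u y) = u := by
  have h : (enc p d a u y).x < p.n ∧ (enc p d a u y).z <
      (lay p d).q ^ (lay p d).c (enc p d a u y).x :=
    ⟨((lay p d).st a u).2, (H205.Lay.numZ a u).2⟩
  rw [dc_of h]
  exact H205.Lay.dec_tapeOf a u _ (fun j hj => if_pos hj)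

theorem enc_enc (a : ℕ) (u u' : TokS p d a) (y : Cn) :
    enc p d a u (enc p d a u' y) = enc p d a u y := by
  unfold enc
  simp only
  congr 1
  funext j
  split_ifs <;> rfl

theorem dc_fst {x0 : (lay p d).X0} (a : ℕ) (y : Cn) :
    (dc p d x0 (a + 1) y).1 = dc p d x0 a y := by
  unfold dc
  split_ifs <;> rfl

theorem dc_snd {x0 : (lay p d).X0} (a : ℕ) (y : Cn) :
    (dc p d x0 (a + 1) y).2 = (lay p d).tlab a y.tp := by
  unfold dc
  split_ifs <;> rfl

theorem enc_succ {x0 : (lay p d).X0} (a : ℕ) (u : TokS p d a) (y : Cn) :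
    dc p d x0 (a + 1) (enc p d a u y) = (u, (dc p d x0 (a + 1) y).2) := by
  refine Prod.ext ?_ ?_
  · rw [dc_fst, dc_enc]
  · rw [dc_snd, dc_snd]
    refine H205.Lay.tlab_congr fun j h1 _ => ?_
    have h2 : 310 * a ≤ j := h1
    exact if_neg (by omega)

theorem tapeOf_dec : ∀ (a : ℕ) (w : Fin (lay p d).n) (z : Fin ((lay p d).q ^ (lay p d).c w))
    (t : ℕ → ℕ) (_ : ∀ j < 310 * a, t j < p.q) (j : ℕ) (_ : j < 310 * a),
    H205.Lay.tapeOf a ((lay p d).dec a w z t) j = t j := by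
  intro a
  induction a with
  | zero => intro w z t _ j hj; omega
  | succ a ih =>
    intro w z t ht j hj
    unfold H205.Lay.tapeOf
    have e : 10 * (lay p d).t * a = 310 * a := rfl
    have e' : 10 * (lay p d).t * (a + 1) = 310 * (a + 1) := rfl
    rw [e, e']
    split_ifs with h
    · obtain ⟨i, rfl⟩ := Nat.exists_eq_add_of_le h.1
      rw [Nat.add_sub_cancel_left]
      exact labDig_tlab (by omega) (ht _ (by omega))
    · exact ih w z t (fun j hj => ht j (by omega)) j (by omega)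

theorem enc_dc {x0 : (lay p d).X0} (hd : Dv p d) {a : ℕ} (ha : a ≤ p.r) {y : Cn}
    (hy : VdS p d y) : enc p d a (dc p d x0 a y) y = y := by
  have h : y.x < p.n ∧ y.z < (lay p d).q ^ (lay p d).c y.x := ⟨hy.1, z_lt hd hy⟩
  rw [dc_of h]
  unfold enc
  ext1
  · exact congrArg Fin.val (H205.Lay.st_dec a _ _ _)
  · exact numZ_dec a _ _ _
  · funext j
    simp only
    split_ifs with hj
    · refine tapeOf_dec a _ _ _ (fun i hi => hy.2.2.1 i ?_) j hj
      rw [L_eq]
      have : 310 * a ≤ 310 * p.r := Nat.mul_le_mul_left _ ha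
      omega
    · rfl

/-- If only the cells below level `a + 1` differ. -/
theorem enc_tail {x0 : (lay p d).X0} {a : ℕ} (ha : a < p.r) (u : TokS p d a) {y y' : Cn}
    (hy' : TpOk p y'.tp) (h : ∀ j, 310 * (a + 1) ≤ j → y'.tp j = y.tp j) :
    enc p d a u y' = enc p d (a + 1) (u, (dc p d x0 (a + 1) y').2) y := by
  unfold enc
  ext1
  · rfl
  · rfl
  · funext j
    simp only
    rw [dc_snd]
    have e : H205.Lay.tapeOf (Y := lay p d) (a + 1) (u, (lay p d).tlab a y'.tp) j =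
        if 310 * a ≤ j ∧ j < 310 * (a + 1) then
          ((lay p d).labDig ((lay p d).tlab a y'.tp) (j - 310 * a)).val
        else H205.Lay.tapeOf a u j := rfl
    rw [e]
    by_cases h1 : j < 310 * a
    · rw [if_pos h1, if_pos (by omega), if_neg (by omega)]
    · rw [if_neg h1]
      by_cases h2 : j < 310 * (a + 1)
      · rw [if_pos h2, if_pos ⟨by omega, h2⟩]
        obtain ⟨i, rfl⟩ := Nat.exists_eq_add_of_le (not_lt.1 h1)
        rw [Nat.add_sub_cancel_left]
        symm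
        refine labDig_tlab (by omega) (hy'.1 _ ?_)
        rw [L_eq]
        have : 310 * (a + 1) ≤ 310 * p.r := Nat.mul_le_mul_left _ ha
        omega
      · rw [if_neg h2]
        exact h j (by omega)

end Vale.Agent.P313.NW.H285
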