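import Vale.Agent.P313.H285.LFx
import Vale.Agent.P313.CT.Lib
import Vale.Agent.P313.NW.BP.Phv

set_option linter.all false

/-!
The walks with hashed blocks are in `TS.LF`.
-/

namespace Vale.Agent.P313.TS.F3W

open Finset TS Vale.Agent.P313.NW.BP

variable {k : ℕ}

theorem LFcomp4 {F : Inp → ℕ → ℕ → ℕ → ℕ → ℕ} {f g h u : Fn k}
    (hF : LF (fun x a => F x (a 0) (a 1) (a 2) (a 3) : Fn 4)) (hf : LF f) (hg : LF g)
    (hh : LF h) (hu : LF u) :
    LF (fun x a => F x (f x a) (g x a) (h x a) (u x a)) :=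
  LF.comp (m := 4) (g := ![f, g, h, u]) hF (fun i => by
    fin_cases i
    · exact hf
    · exact hg
    · exact hh
    · exact hu)

/-- Recursion with an index, in curried form. -/
theorem LFrecC {g n : Fn k} {h : Inp → (Fin k → ℕ) → ℕ → ℕ → ℕ} (hn : LF n) (hg : LF g)
    (hh : LF (fun x b => h x (Fin.tail (Fin.tail b)) (b 0) (b 1) : Fn (k + 2)))
    (B : Fn k) (hB : LF B)
    (hb : ∀ x a i, i ≤ n x a → (Nat.rec (g x a) (fun i r => h x a i r) i : ℕ) ≤ B x a) :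
    LF (fun x a => (Nat.rec (g x a) (fun i r => h x a i r) (n x a) : ℕ)) := by
  have h1 := LF.natRec' (k := k) (n := n) (g := g)
    (h := fun x b => h x (Fin.tail (Fin.tail b)) (b 0) (b 1)) hn hg hh B hB.pb
    (fun x a i hi => by
      simp only [Fin.cons_zero, Fin.cons_one, Fin.tail_cons]
      exact hb x a i hi)
  refine h1.congr (fun x a => ?_)
  simp only [Fin.cons_zero, Fin.cons_one, Fin.tail_cons]

/-! ### Blocks -/

/-- One step of the block function, the hash functions are counted from the last one. -/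
def blkS (Q : ℕ) (g : ℕ → ℕ) (J i c r : ℕ) : ℕ :=
  if i / 2 ^ (J - 1 - c) % 2 = 1 then
    min ((g (2 * (J - 1 - c)) * r + g (2 * (J - 1 - c) + 1)) % Q) Q
  else r

/-- The block function as a recursion. -/
def blkR (Q : ℕ) (g : ℕ → ℕ) (J i y : ℕ) : ℕ := Nat.rec y (fun c r => blkS Q g J i c r) J

theorem blk_rec (Q : ℕ) (hQ : 0 < Q) (g : ℕ → ℕ) (J i y c : ℕ) (hc : c ≤ J) :
    blk Q g J i y = blk Q g (J - c) i (Nat.rec y (fun c r => blkS Q g J i c r) c : ℕ) := by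
  induction c with
  | zero => rfl
  | succ c ih =>
    rw [ih (by omega)]
    have e : J - c = (J - (c + 1)) + 1 := by omega
    have e2 : J - 1 - c = J - (c + 1) := by omega
    rw [e, blk]
    congr 1
    show _ = blkS Q g J i c _
    unfold blkS
    rw [e2]
    split_ifs
    · rw [min_eq_left (Nat.mod_lt _ hQ).le]
    · rfl

theorem blkR_eq (Q : ℕ) (hQ : 0 < Q) (g : ℕ → ℕ) (J i y : ℕ) : blkR Q g J i y = blk Q g J i y := by
  rw [blk_rec Q hQ g J i y J le_rfl, Nat.sub_self]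
  rfl

theorem blkS_rec_le (Q : ℕ) (g : ℕ → ℕ) (J i y c : ℕ) :
    (Nat.rec y (fun c r => blkS Q g J i c r) c : ℕ) ≤ y + Q := by
  induction c with
  | zero => exact Nat.le_add_right _ _
  | succ c ih =>
    show blkS Q g J i c _ ≤ _
    unfold blkS
    split_ifs
    · exact (min_le_right _ _).trans (Nat.le_add_left _ _)
    · exact ih

/-- Only the digits `0, ..., 2 J - 1` matter. -/
theorem blk_congr {Q : ℕ} {g g' : ℕ → ℕ} {J : ℕ} (h : ∀ m < 2 * J, g m = g' m) (i y : ℕ) :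
    blk Q g J i y = blk Q g' J i y := by
  induction J generalizing y with
  | zero => rfl
  | succ J ih =>
    rw [blk, blk, h (2 * J) (by omega), h (2 * J + 1) (by omega)]
    exact ih (fun m hm => h m (by omega)) _

theorem LFblkR {G : Inp → ℕ → ℕ} (hG : LF (fun x a => G x (a 0) : Fn 1)) {Q J i y : Fn k}
    (hQ : LF Q) (hJ : LF J) (hi : LF i) (hy : LF y) :
    LF (fun x a => blkR (Q x a) (G x) (J x a) (i x a) (y x a)) := by
  unfold blkR
  refine LFrecC (h := fun x a c r => blkS (Q x a) (G x) (J x a) (i x a) c r) hJ hy ?_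
    (fun x a => y x a + Q x a) (hy.add hQ) (fun x a c _ => blkS_rec_le _ _ _ _ _ _)
  have hQ' := hQ.weak.weak
  have hJ' := hJ.weak.weak
  have hi' := hi.weak.weak
  have e : LF (fun x b => J x (Fin.tail (Fin.tail b)) - 1 - b 0 : Fn (k + 2)) :=
    (hJ'.sub (LF.const 1)).sub (LF.proj 0)
  unfold blkS
  refine LF.ite (LFP.eq ((LF.divPow (LF.const 2) hi' e).mod (LF.const 2)) (LF.const 1))
    (LF.min ((((LF.comp1 hG ((LF.const 2).mul e)).mul (LF.proj 1)).add
      (LF.comp1 hG (((LF.const 2).mul e).add (LF.const 1)))).mod hQ') hQ') (LF.proj 1)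

/-! ### Walks -/

theorem trw_le (Q N RT : ℕ) (M : ℕ → ℕ → ℕ) (v y : ℕ) : trw Q N RT M v y ≤ N := by
  unfold trw
  split_ifs
  · exact (Finset.card_filter_le _ _).trans (by rw [Finset.card_range])
  · exact le_rfl

theorem trw_eq_sum (Q N RT : ℕ) (M : ℕ → ℕ → ℕ) (v y : ℕ) :
    trw Q N RT M v y = if v < N then
      ∑ x ∈ range N, (if Q * (∑ x' ∈ range (x + 1), M v x') ≤ y * RT then 1 else 0) else N := by
  unfold trw
  rw [Finset.card_filter]

/-- The walk as a recursion. -/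
def wlkR (Q N RT : ℕ) (g : ℕ → ℕ) (J : ℕ) (M : ℕ → ℕ → ℕ → ℕ) (v y m : ℕ) : ℕ :=
  Nat.rec v (fun i r => trw Q N RT (M i) r (blkR Q g J i y)) m

/-- The number of seeds, with `m` steps. -/
def cntR (Q N RT : ℕ) (g : ℕ → ℕ) (J : ℕ) (M : ℕ → ℕ → ℕ → ℕ) (v x m : ℕ) : ℕ :=
  ∑ y ∈ range Q, (if wlkR Q N RT g J M v y m = x then 1 else 0)

theorem wlkR_eq {Q N RT : ℕ} {g : ℕ → ℕ} {J : ℕ} {M : ℕ → ℕ → ℕ → ℕ} {v y : ℕ} (hQ : 0 < Q)
    (m : ℕ) : wlkR Q N RT g J M v y m = NW.BP.wlk Q N RT g J M v y m := by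
  induction m with
  | zero => rfl
  | succ m ih =>
    show trw Q N RT (M m) (wlkR Q N RT g J M v y m) (blkR Q g J m y) = _
    rw [ih, NW.BP.wlk, blkR_eq Q hQ]

theorem trw_congr {Q N RT : ℕ} {M M' : ℕ → ℕ → ℕ} {v y : ℕ}
    (h : v < N → ∀ x < N, M v x = M' v x) : trw Q N RT M v y = trw Q N RT M' v y := by
  unfold trw
  split_ifs with hv
  · congr 1
    refine Finset.filter_congr fun x hx => ?_
    rw [mem_range] at hx
    rw [Finset.sum_congr rfl fun x' hx' => h hv x' (by rw [mem_range] at hx'; omega)]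
  · rfl

theorem wlk_congr {Q N RT : ℕ} {g g' : ℕ → ℕ} {J : ℕ} {M M' : ℕ → ℕ → ℕ → ℕ} {v y m : ℕ}
    (hg : ∀ i < 2 * J, g i = g' i)
    (hM : ∀ i < m, ∀ v < N, ∀ x < N, M i v x = M' i v x) :
    NW.BP.wlk Q N RT g J M v y m = NW.BP.wlk Q N RT g' J M' v y m := by
  induction m with
  | zero => rfl
  | succ m ih =>
    rw [NW.BP.wlk, NW.BP.wlk, ih (fun i hi => hM i (by omega)), blk_congr hg]
    exact trw_congr fun hv x hx => hM m (by omega) _ hv x hx

theorem cntR_eq {Q N RT : ℕ} {g g' : ℕ → ℕ} {J : ℕ} {M M' : ℕ → ℕ → ℕ → ℕ} {v x m : ℕ}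
    (hm : m = 2 ^ J) (hg : ∀ i < 2 * J, g i = g' i)
    (hM : ∀ i < 2 ^ J, ∀ v < N, ∀ x < N, M i v x = M' i v x) :
    cntR Q N RT g J M v x m = cntW Q N RT g' J M' v x := by
  subst hm
  unfold cntR cntW
  rw [Finset.card_filter]
  refine Finset.sum_congr rfl fun y hy => ?_
  rw [mem_range] at hy
  rw [wlkR_eq (by omega), wlk_congr hg hM]

theorem LFtrw {M : Inp → ℕ → ℕ → ℕ → ℕ → ℕ}
    (hM : LF (fun x a => M x (a 0) (a 1) (a 2) (a 3) : Fn 4)) {l Q N RT i v y : Fn k} (hl : LF l)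
    (hQ : LF Q) (hN : LF N) (hRT : LF RT) (hi : LF i) (hv : LF v) (hy : LF y) :
    LF (fun x a => trw (Q x a) (N x a) (RT x a) (M x (l x a) (i x a)) (v x a) (y x a)) := by
  refine LF.congr (f := fun x a => if v x a < N x a then
      ∑ z ∈ range (N x a), (if Q x a * (∑ x' ∈ range (z + 1), M x (l x a) (i x a) (v x a) x') ≤
        y x a * RT x a then 1 else 0) else N x a) ?_ (fun x a => (trw_eq_sum _ _ _ _ _ _).symm)
  refine LF.ite (LFP.lt hv hN) (LF.sumC hN (LF.ite (LFP.le (hQ.weak.mul ?_)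
    (hy.weak.mul hRT.weak)) (LF.const 1) (LF.const 0))) hN
  exact LF.sumC (n := fun _ b => b 0 + 1)
    (g := fun x b x' => M x (l x (Fin.tail b)) (i x (Fin.tail b)) (v x (Fin.tail b)) x')
    ((LF.proj 0).add (LF.const 1)) (LFcomp4 hM hl.weak.weak hi.weak.weak hv.weak.weak (LF.proj 0))

theorem LFwlkR {G : Inp → ℕ → ℕ} (hG : LF (fun x a => G x (a 0) : Fn 1))
    {M : Inp → ℕ → ℕ → ℕ → ℕ → ℕ}
    (hM : LF (fun x a => M x (a 0) (a 1) (a 2) (a 3) : Fn 4)) {l Q N RT J v y m : Fn k}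
    (hl : LF l) (hQ : LF Q) (hN : LF N) (hRT : LF RT) (hJ : LF J) (hv : LF v) (hy : LF y)
    (hm : LF m) :
    LF (fun x a => wlkR (Q x a) (N x a) (RT x a) (G x) (J x a) (M x (l x a)) (v x a) (y x a)
      (m x a)) := by
  unfold wlkR
  refine LFrecC (h := fun x a i r => trw (Q x a) (N x a) (RT x a) (M x (l x a) i) r
    (blkR (Q x a) (G x) (J x a) i (y x a))) hm hv ?_ (fun x a => v x a + N x a) (hv.add hN)
    (fun x a c _ => ?_)
  · exact LFtrw hM hl.weak.weak hQ.weak.weak hN.weak.weak hRT.weak.weak (LF.proj 0) (LF.proj 1)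
      (LFblkR hG hQ.weak.weak hJ.weak.weak (LF.proj 0) hy.weak.weak)
  · cases c with
    | zero => exact Nat.le_add_right _ _
    | succ c => exact (trw_le _ _ _ _ _ _).trans (Nat.le_add_left _ _)

theorem LFcntR {G : Inp → ℕ → ℕ} (hG : LF (fun x a => G x (a 0) : Fn 1))
    {M : Inp → ℕ → ℕ → ℕ → ℕ → ℕ}
    (hM : LF (fun x a => M x (a 0) (a 1) (a 2) (a 3) : Fn 4)) {l Q N RT J v z m : Fn k}
    (hl : LF l) (hQ : LF Q) (hN : LF N) (hRT : LF RT) (hJ : LF J) (hv : LF v) (hz : LF z)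
    (hm : LF m) :
    LF (fun x a => cntR (Q x a) (N x a) (RT x a) (G x) (J x a) (M x (l x a)) (v x a) (z x a)
      (m x a)) := by
  unfold cntR
  exact LF.sumC hQ (LF.ite (LFP.eq (LFwlkR hG hM hl.weak hQ.weak hN.weak hRT.weak hJ.weak hv.weak
    (LF.proj 0) hm.weak) hz.weak) (LF.const 1) (LF.const 0))

end Vale.Agent.P313.TS.F3W
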